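import Vale.Agent.P183CH.IF

/-!
The action of a Steinberg endomorphism on the root lattice and on the roots.
-/

namespace Vale.Agent.P183CH3

open Matrix Vale.Agent.P183CH

variable {R : RS}

lemma pr_add (γ δ : R.Q) (j : Fin R.r) : R.pr (γ + δ) j = R.pr γ j + R.pr δ j := by
  simp [RS.pr, add_vecMul]

lemma pr_smul (m : ℤ) (γ : R.Q) (j : Fin R.r) : R.pr (m • γ) j = m * R.pr γ j := by
  rw [RS.pr, smul_vecMul]
  rfl

lemma pr_al (i j : Fin R.r) : R.pr (R.α i) j = R.A i j := by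
  simp [RS.pr, RS.α]

/-- the simple reflection as a linear map -/
def sl (R : RS) (i : Fin R.r) : R.Q →ₗ[ℤ] R.Q where
  toFun := R.s i
  map_add' γ δ := by
    simp only [RS.s, pr_add, add_smul]
    abel
  map_smul' m γ := by simp only [RS.s, pr_smul, smul_sub, mul_smul, RingHom.id_apply]

lemma s_neg (i : Fin R.r) (γ : R.Q) : R.s i (-γ) = -R.s i γ := map_neg (sl R i) γ

lemma s_smul (i : Fin R.r) (m : ℤ) (γ : R.Q) : R.s i (m • γ) = m • R.s i γ :=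
  map_smul (sl R i) m γ

lemma s_al (hR : R.Ok) (i : Fin R.r) : R.s i (R.α i) = -R.α i := by
  rw [RS.s, pr_al, hR.diag, two_smul]
  abel

lemma s_s (hR : R.Ok) (i : Fin R.r) (γ : R.Q) : R.s i (R.s i γ) = γ := by
  have h := map_sub (sl R i) γ (R.pr γ i • R.α i)
  rw [map_smul] at h
  change R.s i (R.s i γ) = R.s i γ - R.pr γ i • R.s i (R.α i) at h
  rw [h, s_al hR, smul_neg, sub_neg_eq_add, RS.s, sub_add_cancel]

/-- induction over the roots -/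
lemma root_ind (hR : R.Ok) {P : R.Q → Prop} (h0 : ∀ i, P (R.α i))
    (h1 : ∀ i, ∀ γ ∈ R.Φ, P γ → P (R.s i γ)) : ∀ γ ∈ R.Φ, P γ := by
  intro γ hγ
  obtain ⟨l, i, rfl⟩ := hR.conj γ hγ
  have : l.foldr R.s (R.α i) ∈ R.Φ ∧ P (l.foldr R.s (R.α i)) := by
    clear hγ
    induction l with
    | nil => exact ⟨hR.simple i, h0 i⟩
    | cons j l ih => exact ⟨hR.refl j _ ih.1, h1 j _ ih.1 ih.2⟩
  exact this.2

lemma neg_root (hR : R.Ok) : ∀ γ ∈ R.Φ, -γ ∈ R.Φ :=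
  root_ind hR (fun i => s_al hR i ▸ hR.refl i _ (hR.simple i))
    fun i _ _ h => s_neg i _ ▸ hR.refl i _ h

/-- proportional roots -/
lemma root_eq (hR : R.Ok) : ∀ γ ∈ R.Φ, ∀ δ ∈ R.Φ, ∀ m n : ℤ, 0 < m → 0 < n →
    m • γ = n • δ → γ = δ := by
  refine root_ind hR (fun i δ hδ m n hm hn h => ?_) fun i γ _ ih δ hδ m n hm hn h => ?_
  · have e : δ = δ i • R.α i := by
      funext j
      have h1 := congrFun h j
      by_cases hj : j = i
      · subst hj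
        simp [RS.α]
      · simp only [RS.α, Pi.smul_apply, Pi.single_eq_of_ne hj, smul_eq_mul, mul_zero] at h1 ⊢
        exact (mul_eq_zero.1 h1.symm).resolve_left hn.ne'
    have h1 := congrFun h i
    simp only [RS.α, Pi.smul_apply, Pi.single_eq_same, smul_eq_mul, mul_one] at h1
    rcases hR.red i (δ i) (e ▸ hδ) with h2 | h2
    · rw [e, h2, one_smul]
    · rw [h2] at h1
      omega
  · have h1 := congrArg (R.s i) h
    rw [s_smul, s_smul, s_s hR] at h1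
    rw [ih _ (hR.refl i δ hδ) m n hm hn h1, s_s hR]

/-- the map `α_{π i} ↦ p ^ a i • α_i` -/
def sg (R : RS) (p : ℕ) (π : Equiv.Perm (Fin R.r)) (a : Fin R.r → ℕ) : R.Q →ₗ[ℤ] R.Q where
  toFun γ i := (p : ℤ) ^ a i * γ (π i)
  map_add' γ δ := by
    funext i
    simp [mul_add]
  map_smul' m γ := by
    funext i
    simp [mul_left_comm]

/-- the lattice part of a Steinberg endomorphism -/
structure Tw (R : RS) (p : ℕ) (π : Equiv.Perm (Fin R.r)) (a : Fin R.r → ℕ) (e f : ℕ) : Prop where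
  ok : R.Ok
  one_lt : 1 < p
  cartan : ∀ i j, R.A i j * (p : ℤ) ^ a i = (p : ℤ) ^ a j * R.A (π i) (π j)
  epos : 0 < e
  ele : e ≤ 3
  fpos : 0 < f
  pow : ∀ γ, (sg R p π a)^[e] γ = (p : ℤ) ^ f • γ

open Classical in
/-- the permutation of the roots, and the exponents -/
noncomputable def rl (R : RS) (p : ℕ) (π : Equiv.Perm (Fin R.r)) (a : Fin R.r → ℕ) (γ : R.Q) :
    R.Q × ℕ :=
  if h : ∃ z : R.Q × ℕ, z.1 ∈ R.Φ ∧ sg R p π a z.1 = (p : ℤ) ^ z.2 • γ then h.choose else (γ, 0)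

/-- the permutation `ρ` of the roots -/
noncomputable def rho (R : RS) (p : ℕ) (π : Equiv.Perm (Fin R.r)) (a : Fin R.r → ℕ) (γ : R.Q) :
    R.Q := (rl R p π a γ).1

/-- `q_γ = p ^ lv γ` -/
noncomputable def lv (R : RS) (p : ℕ) (π : Equiv.Perm (Fin R.r)) (a : Fin R.r → ℕ) (γ : R.Q) :
    ℕ := (rl R p π a γ).2

/-- the exponent of `σ ^ l` on the root `γ` -/
noncomputable def lvs (R : RS) (p : ℕ) (π : Equiv.Perm (Fin R.r)) (a : Fin R.r → ℕ) (γ : R.Q)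
    (l : ℕ) : ℕ := ∑ j ∈ Finset.range l, lv R p π a ((rho R p π a)^[j] γ)

/-- the length of the orbit of `γ` -/
noncomputable def len (R : RS) (p : ℕ) (π : Equiv.Perm (Fin R.r)) (a : Fin R.r → ℕ) (γ : R.Q) :
    ℕ := Function.minimalPeriod (rho R p π a) γ

/-- `Q_γ = p ^ lQ γ` -/
noncomputable def lQ (R : RS) (p : ℕ) (π : Equiv.Perm (Fin R.r)) (a : Fin R.r → ℕ) (γ : R.Q) :
    ℕ := lvs R p π a γ (len R p π a γ)

variable {p : ℕ} {π : Equiv.Perm (Fin R.r)} {a : Fin R.r → ℕ} {e f : ℕ}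

lemma sg_apply (γ : R.Q) (i : Fin R.r) : sg R p π a γ i = (p : ℤ) ^ a i * γ (π i) := rfl

lemma sg_al (i : Fin R.r) : sg R p π a (R.α (π i)) = (p : ℤ) ^ a i • R.α i := by
  funext j
  by_cases hj : j = i
  · subst hj
    simp [sg_apply, RS.α]
  · simp [sg_apply, RS.α, hj]

namespace Tw

variable (h : Tw R p π a e f)
include h

lemma ppos (n : ℕ) : (0 : ℤ) < (p : ℤ) ^ n := pow_pos (by have := h.one_lt; omega) n

lemma sg_inj : Function.Injective (sg R p π a) := fun γ δ e => by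
  funext i
  have h1 := congrFun e (π.symm i)
  rw [sg_apply, sg_apply, π.apply_symm_apply] at h1
  exact mul_left_cancel₀ (h.ppos _).ne' h1

lemma sg_nonneg {γ : R.Q} : 0 ≤ sg R p π a γ ↔ 0 ≤ γ := by
  refine ⟨fun h1 i => ?_, fun h1 i => mul_nonneg (h.ppos _).le (h1 _)⟩
  have h2 := h1 (π.symm i)
  rw [sg_apply, π.apply_symm_apply] at h2
  exact (mul_nonneg_iff_of_pos_left (h.ppos _)).1 h2

lemma sg_nonpos {γ : R.Q} : sg R p π a γ ≤ 0 ↔ γ ≤ 0 := by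
  rw [← neg_nonneg, ← map_neg, h.sg_nonneg, neg_nonneg]

lemma pr_sg (γ : R.Q) (j : Fin R.r) :
    R.pr (sg R p π a γ) j = (p : ℤ) ^ a j * R.pr γ (π j) := by
  simp only [RS.pr, vecMul, dotProduct, sg_apply, Finset.mul_sum]
  refine Fintype.sum_equiv π _ _ fun i => ?_
  linear_combination γ (π i) * h.cartan i j

lemma sg_s (j : Fin R.r) (γ : R.Q) : sg R p π a (R.s (π j) γ) = R.s j (sg R p π a γ) := by
  rw [RS.s, RS.s, map_sub, map_smul, sg_al, h.pr_sg, smul_smul, mul_comm]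

lemma exists_rl : ∀ γ ∈ R.Φ, ∃ z : R.Q × ℕ, z.1 ∈ R.Φ ∧ sg R p π a z.1 = (p : ℤ) ^ z.2 • γ :=
  root_ind h.ok (fun i => ⟨(R.α (π i), a i), h.ok.simple _, sg_al i⟩)
    fun i _ _ ⟨z, h1, h2⟩ => ⟨(R.s (π i) z.1, z.2), h.ok.refl _ _ h1, by
      rw [h.sg_s, h2, s_smul]⟩

lemma rho_spec {γ : R.Q} (hγ : γ ∈ R.Φ) : rho R p π a γ ∈ R.Φ ∧
    sg R p π a (rho R p π a γ) = (p : ℤ) ^ lv R p π a γ • γ := by
  rw [rho, lv, rl, dif_pos (h.exists_rl γ hγ)]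
  exact (h.exists_rl γ hγ).choose_spec

lemma rho_mem {γ : R.Q} (hγ : γ ∈ R.Φ) : rho R p π a γ ∈ R.Φ := (h.rho_spec hγ).1

lemma sg_rho {γ : R.Q} (hγ : γ ∈ R.Φ) :
    sg R p π a (rho R p π a γ) = (p : ℤ) ^ lv R p π a γ • γ := (h.rho_spec hγ).2

lemma pow_inj {γ : R.Q} (hγ : γ ∈ R.Φ) {m n : ℕ} (e : (p : ℤ) ^ m • γ = (p : ℤ) ^ n • γ) :
    m = n :=
  pow_right_injective₀ (by have := h.one_lt; omega) (by have := h.one_lt; omega)
    (smul_left_injective ℤ (h.ok.sign γ hγ).1 e)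

lemma rho_eq {γ δ : R.Q} (hγ : γ ∈ R.Φ) (hδ : δ ∈ R.Φ) {b : ℕ}
    (e : sg R p π a δ = (p : ℤ) ^ b • γ) : rho R p π a γ = δ ∧ lv R p π a γ = b := by
  have h1 : rho R p π a γ = δ := by
    refine root_eq h.ok _ (h.rho_mem hγ) _ hδ _ _ (h.ppos b) (h.ppos (lv R p π a γ)) (h.sg_inj ?_)
    rw [map_smul, map_smul, e, h.sg_rho hγ, smul_comm]
  exact ⟨h1, h.pow_inj hγ (by rw [← h.sg_rho hγ, h1, e])⟩

lemma rho_al (i : Fin R.r) : rho R p π a (R.α i) = R.α (π i) ∧ lv R p π a (R.α i) = a i :=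
  h.rho_eq (h.ok.simple i) (h.ok.simple _) (sg_al i)

lemma rho_neg {γ : R.Q} (hγ : γ ∈ R.Φ) :
    rho R p π a (-γ) = -rho R p π a γ ∧ lv R p π a (-γ) = lv R p π a γ :=
  h.rho_eq (neg_root h.ok _ hγ) (neg_root h.ok _ (h.rho_mem hγ)) (by
    rw [map_neg, h.sg_rho hγ, smul_neg])

lemma rho_s (i : Fin R.r) {γ : R.Q} (hγ : γ ∈ R.Φ) :
    rho R p π a (R.s i γ) = R.s (π i) (rho R p π a γ) ∧ lv R p π a (R.s i γ) = lv R p π a γ :=
  h.rho_eq (h.ok.refl i _ hγ) (h.ok.refl _ _ (h.rho_mem hγ)) (by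
    rw [h.sg_s, h.sg_rho hγ, s_smul])

lemma exists_lv : ∀ γ ∈ R.Φ, ∃ i, lv R p π a γ = a i :=
  root_ind h.ok (fun i => ⟨i, (h.rho_al i).2⟩) fun i _ hγ ⟨j, hj⟩ => ⟨j, (h.rho_s i hγ).2.trans hj⟩

lemma rho_coord {γ : R.Q} (hγ : γ ∈ R.Φ) (i : Fin R.r) :
    (p : ℤ) ^ a i * rho R p π a γ (π i) = (p : ℤ) ^ lv R p π a γ * γ i :=
  congrFun (h.sg_rho hγ) i

lemma rho_nonneg {γ : R.Q} (hγ : γ ∈ R.Φ) : 0 ≤ rho R p π a γ ↔ 0 ≤ γ := by
  rw [← h.sg_nonneg, h.sg_rho hγ]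
  exact forall_congr' fun i => mul_nonneg_iff_of_pos_left (h.ppos _)

lemma rho_nonpos {γ : R.Q} (hγ : γ ∈ R.Φ) : rho R p π a γ ≤ 0 ↔ γ ≤ 0 := by
  rw [← neg_nonneg, ← (h.rho_neg hγ).1, h.rho_nonneg (neg_root h.ok _ hγ), neg_nonneg]

lemma iter_mem {γ : R.Q} (hγ : γ ∈ R.Φ) (l : ℕ) : (rho R p π a)^[l] γ ∈ R.Φ := by
  induction l with
  | zero => exact hγ
  | succ l ih =>
    rw [Function.iterate_succ_apply']
    exact h.rho_mem ih

lemma iter_nonneg {γ : R.Q} (hγ : γ ∈ R.Φ) (l : ℕ) : 0 ≤ (rho R p π a)^[l] γ ↔ 0 ≤ γ := by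
  induction l with
  | zero => rfl
  | succ l ih => rw [Function.iterate_succ_apply', h.rho_nonneg (h.iter_mem hγ l), ih]

omit h in
lemma lvs_succ (γ : R.Q) (l : ℕ) :
    lvs R p π a γ (l + 1) = lvs R p π a γ l + lv R p π a ((rho R p π a)^[l] γ) :=
  Finset.sum_range_succ _ _

omit h in
lemma iter_smul (l : ℕ) (m : ℤ) (γ : R.Q) :
    (sg R p π a)^[l] (m • γ) = m • (sg R p π a)^[l] γ := by
  rw [← Module.End.pow_apply, ← Module.End.pow_apply, map_smul]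

lemma sg_iter {γ : R.Q} (hγ : γ ∈ R.Φ) (l : ℕ) :
    (sg R p π a)^[l] ((rho R p π a)^[l] γ) = (p : ℤ) ^ lvs R p π a γ l • γ := by
  induction l with
  | zero => simp [lvs]
  | succ l ih =>
    rw [Function.iterate_succ_apply, Function.iterate_succ_apply', h.sg_rho (h.iter_mem hγ l),
      iter_smul, ih, lvs_succ, smul_smul, ← pow_add, add_comm]

lemma iter_e {γ : R.Q} (hγ : γ ∈ R.Φ) :
    (rho R p π a)^[e] γ = γ ∧ lvs R p π a γ e = f := by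
  have h1 := h.sg_iter hγ e
  rw [h.pow] at h1
  have h2 := root_eq h.ok _ (h.iter_mem hγ e) _ hγ _ _ (h.ppos _) (h.ppos _) h1
  rw [h2] at h1
  exact ⟨h2, (h.pow_inj hγ h1).symm⟩

lemma rho_surj {γ : R.Q} (hγ : γ ∈ R.Φ) : rho R p π a ((rho R p π a)^[e - 1] γ) = γ := by
  rw [← Function.iterate_succ_apply' (rho R p π a), Nat.succ_eq_add_one,
    Nat.sub_add_cancel h.epos, (h.iter_e hγ).1]

lemma rho_inj {γ δ : R.Q} (hγ : γ ∈ R.Φ) (hδ : δ ∈ R.Φ) (e : rho R p π a γ = rho R p π a δ) :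
    γ = δ :=
  root_eq h.ok _ hγ _ hδ _ _ (h.ppos _) (h.ppos _) (by rw [← h.sg_rho hγ, ← h.sg_rho hδ, e])

lemma periodic {γ : R.Q} (hγ : γ ∈ R.Φ) : γ ∈ Function.periodicPts (rho R p π a) :=
  ⟨e, h.epos, (h.iter_e hγ).1⟩

lemma len_pos {γ : R.Q} (hγ : γ ∈ R.Φ) : 0 < len R p π a γ :=
  Function.minimalPeriod_pos_of_mem_periodicPts (h.periodic hγ)

lemma len_dvd {γ : R.Q} (hγ : γ ∈ R.Φ) : len R p π a γ ∣ e :=
  Function.IsPeriodicPt.minimalPeriod_dvd (h.iter_e hγ).1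

lemma len_le {γ : R.Q} (hγ : γ ∈ R.Φ) : len R p π a γ ≤ 3 :=
  (Nat.le_of_dvd h.epos (h.len_dvd hγ)).trans h.ele

omit h in
lemma iter_len (γ : R.Q) : (rho R p π a)^[len R p π a γ] γ = γ :=
  Function.iterate_minimalPeriod

omit h in
lemma iter_ne {γ : R.Q} {l : ℕ} (h0 : 0 < l) (hl : l < len R p π a γ) :
    (rho R p π a)^[l] γ ≠ γ := Function.not_isPeriodicPt_of_pos_of_lt_minimalPeriod h0.ne' hl

lemma sg_len {γ : R.Q} (hγ : γ ∈ R.Φ) :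
    (sg R p π a)^[len R p π a γ] γ = (p : ℤ) ^ lQ R p π a γ • γ := by
  have := h.sg_iter hγ (len R p π a γ)
  rwa [iter_len] at this

lemma lQ_mul {γ : R.Q} (hγ : γ ∈ R.Φ) {m : ℕ} (hm : e = len R p π a γ * m) :
    lQ R p π a γ * m = f := by
  have h1 : ∀ j, (sg R p π a)^[len R p π a γ * j] γ = (p : ℤ) ^ (lQ R p π a γ * j) • γ := by
    intro j
    induction j with
    | zero => simp
    | succ j ih =>
      rw [Nat.mul_succ, Function.iterate_add_apply, h.sg_len hγ, iter_smul, ih, smul_smul,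
        ← pow_add, Nat.mul_succ, add_comm]
  exact h.pow_inj hγ (by rw [← h1, ← hm, h.pow])

lemma lQ_dvd {γ : R.Q} (hγ : γ ∈ R.Φ) : lQ R p π a γ ∣ f := by
  obtain ⟨m, hm⟩ := h.len_dvd hγ
  exact ⟨m, (h.lQ_mul hγ hm).symm⟩

lemma lQ_pos {γ : R.Q} (hγ : γ ∈ R.Φ) : 0 < lQ R p π a γ :=
  Nat.pos_of_dvd_of_pos (h.lQ_dvd hγ) h.fpos

lemma le_lQ {γ : R.Q} (hγ : γ ∈ R.Φ) : f ≤ 3 * lQ R p π a γ := by
  obtain ⟨m, hm⟩ := h.len_dvd hγ
  have h1 : m ≤ 3 := (Nat.le_of_dvd h.epos ⟨_, hm.trans (mul_comm _ _)⟩).trans h.ele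
  rw [← h.lQ_mul hγ hm, mul_comm]
  exact Nat.mul_le_mul_right _ h1

lemma pi_e (i : Fin R.r) : π^[e] i = i := by
  have h1 : ∀ l, (rho R p π a)^[l] (R.α i) = R.α (π^[l] i) := fun l => by
    induction l with
    | zero => rfl
    | succ l ih => rw [Function.iterate_succ_apply', ih, (h.rho_al _).1,
        Function.iterate_succ_apply']
  have h2 := (h.iter_e (h.ok.simple i)).1
  rw [h1] at h2
  by_contra hne
  simpa [RS.α, Pi.single_eq_of_ne' hne] using congrFun h2 i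

end Tw

/-- the numbers `q_i` are comparable -/
theorem exists_cmp (hR : R.Ok) : ∃ C : ℕ, ∀ (p : ℕ) (π : Equiv.Perm (Fin R.r)) (a : Fin R.r → ℕ)
    (e f : ℕ), Tw R p π a e f → ∀ i j, p ^ a i ≤ C * p ^ a j := by
  obtain ⟨B, hB⟩ : ∃ B : ℕ, ∀ i j, (R.A i j).natAbs ≤ B := by
    obtain ⟨B, hB⟩ := (Set.finite_range fun z : Fin R.r × Fin R.r => (R.A z.1 z.2).natAbs).bddAbove
    exact ⟨B, fun i j => hB ⟨(i, j), rfl⟩⟩
  have key : ∀ i j, ∃ C : ℕ, ∀ (p : ℕ) (π : Equiv.Perm (Fin R.r)) (a : Fin R.r → ℕ)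
      (e f : ℕ), Tw R p π a e f → p ^ a j ≤ C * p ^ a i := fun i j => by
    refine hR.conn (fun j => ∃ C : ℕ, ∀ (p : ℕ) (π : Equiv.Perm (Fin R.r)) (a : Fin R.r → ℕ)
      (e f : ℕ), Tw R p π a e f → p ^ a j ≤ C * p ^ a i) i j ⟨1, fun _ _ _ _ _ _ => by simp⟩ ?_
    rintro l j ⟨C, hC⟩ hA
    refine ⟨B * C, fun p π a e f h => ?_⟩
    have h1 := congrArg Int.natAbs (h.cartan j l)
    simp only [Int.natAbs_mul, Int.natAbs_pow, Int.natAbs_natCast] at h1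
    calc p ^ a j ≤ (R.A j l).natAbs * p ^ a j :=
          Nat.le_mul_of_pos_left _ (Int.natAbs_pos.2 hA)
      _ = p ^ a l * (R.A (π j) (π l)).natAbs := h1
      _ ≤ C * p ^ a i * B := Nat.mul_le_mul (hC p π a e f h) (hB _ _)
      _ = _ := by ring
  choose C hC using key
  obtain ⟨D, hD⟩ := (Set.finite_range fun z : Fin R.r × Fin R.r => C z.1 z.2).bddAbove
  exact ⟨D, fun p π a e f h i j =>
    (hC j i p π a e f h).trans (Nat.mul_le_mul_right _ (hD ⟨(j, i), rfl⟩))⟩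

end Vale.Agent.P183CH3
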