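import Vale.Agent.P183CH3.NJ
import Vale.Agent.P183CH3S.BN

/-!
Block CH3: the structure of the group of fixed points of a Steinberg endomorphism.
-/

namespace Vale.Agent.P183CH3

open Subgroup Vale.Agent.P183CH

variable {R : RS} {k : Type} [Field k] {G : Type} [Group G]

theorem SC.exists_u {Γ : RG R k G} {p : ℕ} {σ : G →* G} {π : Equiv.Perm (Fin R.r)}
    {a : Fin R.r → ℕ} {e f d : ℕ} [Fact p.Prime] [CharP k p] [IsAlgClosed k]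
    (c : SC Γ p σ π a e f d) (i : Fin R.r) :
    ∃ u ∈ Γ.UJ {j | π.SameCycle i j}, σ u = u ∧ u ≠ 1 := by
  obtain ⟨y, hy, h1, h2⟩ := c.exists_y i
  obtain ⟨n, hn, w, hw, h3⟩ := c.exists_nJ i
  refine ⟨n * y * n⁻¹, (c.hΓ.Lg_conj' c.hR h3 hw).1 hy, ?_, fun h => h2 (conj_eq_one_iff.1 h)⟩
  rw [map_mul, map_mul, map_inv, h1, fixP_le hn]

theorem ch3t : Vale.Agent.P183BD.CH3T := fun _ _ _ _ _ _ _ _ _ _ _ _ hR hΓ hσ =>
  have c : SC _ _ _ _ _ _ _ _ := ⟨hR, hΓ, hσ⟩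
  ⟨c.tw, Vale.Agent.P183CH3S.sba c c.exists_u, c.ser, fun _ ht γ => c.chi_sig γ ht,
    fun _ ht => c.iter_T ht⟩

end Vale.Agent.P183CH3
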