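import Vale.Agent.P183CH3.Series

/-!
Fixed representatives of the longest elements of the orbits of simple roots.
-/

set_option linter.unusedSectionVars false

namespace Vale.Agent.P183CH3

open Subgroup Vale.Agent.P183CH Vale.Agent.P183A

variable {R : RS} {k : Type} [Field k] {G : Type} [Group G]

lemma map_nonpos {J : Set (Fin R.r)} {w : R.Aut} (h : ∀ j ∈ J, w (R.α j) ≤ 0) {γ : R.Q}
    (h0 : 0 ≤ γ) (hJ : R.In J γ) : w γ ≤ 0 := by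
  rw [RS.eq_sum γ, map_sum]
  refine Finset.sum_nonpos fun j _ => ?_
  by_cases hj : j ∈ J
  · rw [map_smul]
    exact fun i => mul_nonpos_of_nonneg_of_nonpos (h0 j) (h j hj i)
  · rw [hJ j hj, zero_smul, map_zero]

lemma map_nonneg {J : Set (Fin R.r)} {w : R.Aut} (h : ∀ j ∈ J, 0 ≤ w (R.α j)) {γ : R.Q}
    (h0 : 0 ≤ γ) (hJ : R.In J γ) : 0 ≤ w γ := by
  rw [RS.eq_sum γ, map_sum]
  refine Finset.sum_nonneg fun j _ => ?_
  by_cases hj : j ∈ J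
  · rw [map_smul]
    exact fun i => mul_nonneg (h0 j) (h j hj i)
  · rw [hJ j hj, zero_smul, map_zero]

lemma al_PJ (hR : R.Ok) {J : Set (Fin R.r)} {i : Fin R.r} (hi : i ∈ J) : R.α i ∈ R.PJ J :=
  ⟨hR.simple i, RS.α_nonneg i, fun j hj => Pi.single_eq_of_ne (fun e : j = i => hj (e ▸ hi)) _⟩

namespace SC

variable {Γ : RG R k G} {p : ℕ} {σ : G →* G} {π : Equiv.Perm (Fin R.r)} {a : Fin R.r → ℕ}
  {e f d : ℕ} [Fact p.Prime] [CharP k p] [IsAlgClosed k] (c : SC Γ p σ π a e f d)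
include c

lemma Inv_le (w : R.Aut) : Γ.X (R.Inv w) ≤ Γ.U := RG.X_mono fun _ h _ => h.2.1

lemma UJ_le (J : Set (Fin R.r)) : Γ.UJ J ≤ Γ.U := RG.X_mono fun _ h _ => h.2.1

lemma VJ_le (J : Set (Fin R.r)) : Γ.VJ J ≤ Γ.V := RG.X_mono fun _ h _ => h.1

lemma T_le : Γ.T ≤ Γ.Bo := le_sup_right

lemma U_le : Γ.U ≤ Γ.Bo := le_sup_left

lemma V_Bo {g : G} (h1 : g ∈ Γ.V) (h2 : g ∈ Γ.Bo) : g = 1 := by
  obtain ⟨u, hu, t, ht, rfl⟩ := c.hΓ.mem_Bo.1 h2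
  rw [(c.hΓ.tri u hu t ht h1).1, (c.hΓ.tri u hu t ht h1).2, one_mul]

lemma in_rho (i : Fin R.r) {γ : R.Q} (hγ : γ ∈ R.Φ) (h : R.In {j | π.SameCycle i j} γ) :
    R.In {j | π.SameCycle i j} (rho R p π a γ) := by
  intro j hj
  have h1 := c.tw.rho_coord hγ (π.symm j)
  rw [h (π.symm j) fun h2 => hj (by
    simpa using (Equiv.Perm.sameCycle_apply_right.2 h2)), mul_zero, π.apply_symm_apply] at h1
  exact (mul_eq_zero.1 h1).resolve_left (c.tw.ppos _).ne'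

theorem fix_bruhat {u n v : G} {w : R.Aut} (hu : u ∈ Γ.U) (hn : Γ.Rep n w)
    (hv : v ∈ Γ.X (R.Inv w)) (h : σ (u * n * v) = u * n * v) : σ u = u ∧ σ n = n ∧ σ v = v := by
  obtain ⟨w', h1, h2⟩ := c.sig_rep hn
  rw [map_mul, map_mul] at h
  refine c.hΓ.bruhat_unique c.hR h1 hn (c.sig_U hu) hu (c.sig_X (fun γ hγ h3 => ?_) hv) hv h
  refine ⟨c.tw.rho_mem h3, (c.tw.rho_nonneg h3).2 hγ.2.1, c.tw.sg_nonpos.1 ?_⟩
  rw [h2, c.tw.sg_rho h3, map_smul]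
  exact fun i => mul_nonpos_of_nonneg_of_nonpos (c.tw.ppos _).le (hγ.2.2 i)

lemma VJ_fix {J : Set (Fin R.r)} {g : G} (hg : g ∈ Γ.VJ J) (hσ : σ g = g) : g ∈ fixP p σ := by
  obtain ⟨m, hm⟩ := c.hΓ.U_pow c.hR p
  obtain ⟨w, hw⟩ := c.hR.exists_Lg J
  obtain ⟨n, -, hn⟩ := RG.exists_rep' (Γ := Γ) hw.1
  have h1 := hm _ (c.UJ_le J ((c.hΓ.Lg_conj' c.hR hn hw).1 hg))
  rw [conj_pow, conj_eq_one_iff] at h1
  exact subset_closure ⟨hσ, m, h1⟩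

theorem exists_y (i : Fin R.r) : ∃ y ∈ Γ.VJ {j | π.SameCycle i j}, σ y = y ∧ y ≠ 1 := by
  set J := {j | π.SameCycle i j}
  obtain ⟨w, hw⟩ := c.hR.exists_Lg J
  obtain ⟨n, -, hn⟩ := RG.exists_rep' (Γ := Γ) hw.1
  have hW := RS.WJ_le J hw.1
  obtain ⟨β, hβ⟩ := exists_mx (S := ∅) (RS.cl_PJ J).1
    fun h => h (al_PJ c.hR (Equiv.Perm.SameCycle.refl π i))
  have h1 := (c.cen_ob (c.gd_empty (RS.cl_PJ J) fun δ h => ⟨c.tw.rho_mem h.1,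
    (c.tw.rho_nonneg h.1).2 h.2.1, c.in_rho i h.1 h.2.2⟩) hβ β ⟨0, rfl⟩).2
  have hδ : w β ∈ R.Φ := c.hR.map_mem hW hβ.1.1
  have hδ1 : w β ≤ 0 ∧ R.In J (w β) :=
    ⟨c.hR.Lg_neg hw hβ.1.2.1 hβ.1.2.2, c.hR.map_In hw.1 hβ.1.2.2⟩
  have hst : ∀ δ ∈ {γ | γ ∈ R.Φ ∧ γ ≤ 0 ∧ R.In J γ}, rho R p π a δ ∈
      {γ | γ ∈ R.Φ ∧ γ ≤ 0 ∧ R.In J γ} := fun δ h =>
    ⟨c.tw.rho_mem h.1, (c.tw.rho_nonpos h.1).2 h.2.1, c.in_rho i h.1 h.2.2⟩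
  have hs : ∀ g ∈ Γ.VJ J, σ g ∈ Γ.VJ J := fun g hg =>
    c.sig_X (fun δ h h' => (hst δ ⟨h', h⟩).2) hg
  obtain ⟨ε, hε⟩ := c.sig_iter hδ (len R p π a (w β))
  rw [Tw.iter_len] at hε
  obtain ⟨t, ht0, ht⟩ := exists_fix (k := k) (Nat.one_lt_pow (c.tw.lQ_pos hδ).ne' c.tw.one_lt) ε
  have hz : Γ.x (w β) t ∈ Γ.VJ J := RG.x_mem hδ hδ1 t
  have hy := (nrm_mem hs hz (len R p π a (w β))).2
  refine ⟨_, hy, ?_, fun h0 => ?_⟩
  · obtain ⟨b, hb⟩ := c.hΓ.rep_conj c.hR hn hβ.1.1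
    have h2 := (hb (b⁻¹ * t)).1
    rw [Units.mul_inv_cancel_left] at h2
    have h3 := h1 (b⁻¹ * t) (n⁻¹ * nrm σ (Γ.x (w β) t) (len R p π a (w β)) * n)
      ((c.hΓ.Lg_conj c.hR hn hw).2 (by simpa [mul_assoc] using hy))
    rw [X_empty, mem_bot] at h3
    rw [sig_nrm, hε, ← lQ, ht]
    generalize nrm σ (Γ.x (w β) t) (len R p π a (w β)) = y at h3 ⊢
    rw [← h2]
    calc _ = n * (Γ.x β (b⁻¹ * t))⁻¹ * (Γ.x β (b⁻¹ * t) * (n⁻¹ * y * n) * (Γ.x β (b⁻¹ * t))⁻¹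
          * (n⁻¹ * y * n)⁻¹)⁻¹ * Γ.x β (b⁻¹ * t) * (n⁻¹ * y * n) * n⁻¹ := by group
      _ = _ := by rw [h3]; group
  · have h2 : ∀ l, ∃ s, n * σ^[l] (Γ.x (w β) t) * n⁻¹ = Γ.x (w ((rho R p π a)^[l] (w β))) s := by
      intro l
      obtain ⟨ε', h2⟩ := c.sig_iter hδ l
      obtain ⟨b, hb⟩ := c.hΓ.rep_conj c.hR hn (c.tw.iter_mem hδ l)
      exact ⟨_, by rw [h2, (hb _).1]⟩
    choose s hs using h2
    have h3 : ∀ l, n * nrm σ (Γ.x (w β) t) l * n⁻¹ = ((List.range l).map fun j =>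
        Γ.x (w ((rho R p π a)^[j] (w β))) (s j)).prod := by
      intro l
      induction l with
      | zero => simp [nrm]
      | succ l ih =>
        rw [List.range_succ, List.map_append, List.prod_append, ← ih, List.map_singleton,
          List.prod_singleton, ← hs, nrm]
        group
    have h4 := c.hΓ.uniq ((List.range (len R p π a (w β))).map fun j =>
      (w ((rho R p π a)^[j] (w β)), s j)) ?_ ?_ ?_ (w (w β), s 0)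
      (List.mem_map.2 ⟨0, List.mem_range.2 (c.tw.len_pos hδ), rfl⟩)
    · have h5 := hs 0
      rw [show s 0 = 0 from h4, c.hΓ.x_zero (c.hR.map_mem hW (c.tw.iter_mem hδ 0)),
        conj_eq_one_iff, ← c.hΓ.x_zero hδ] at h5
      exact ht0 (c.hΓ.x_inj c.hR hδ h5)
    · rw [List.map_map]
      exact List.nodup_range.map_on fun j hj l hl h => Function.iterate_injOn_Iio_minimalPeriod
        (List.mem_range.1 hj) (List.mem_range.1 hl) (w.injective h)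
    · intro z hz
      obtain ⟨j, -, rfl⟩ := List.mem_map.1 hz
      have h5 := iter_st hst ⟨hδ, hδ1⟩ j
      refine ⟨c.hR.map_mem hW h5.1, neg_nonpos.1 ?_⟩
      rw [← map_neg]
      exact c.hR.Lg_neg hw (neg_nonneg.2 h5.2.1) fun j hj => neg_eq_zero.2 (h5.2.2 j hj)
    · rw [List.map_map]
      exact (h3 _).symm.trans (by rw [h0, mul_one, mul_inv_cancel])

lemma sign {w : R.Aut} (hw : ∀ γ, sg R p π a (w γ) = w (sg R p π a γ)) {i j : Fin R.r}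
    (h : π.SameCycle i j) : w (R.α i) ≤ 0 ↔ w (R.α j) ≤ 0 := by
  obtain ⟨l, -, rfl⟩ := h.exists_pow_eq'
  clear h
  induction l with
  | zero => rfl
  | succ l ih =>
    rw [ih, pow_succ', Equiv.Perm.mul_apply, ← c.tw.sg_nonpos (γ := w (R.α (π _))), hw, sg_al,
      map_smul]
    exact ⟨fun h i => mul_nonpos_of_nonneg_of_nonpos (c.tw.ppos _).le (h i),
      fun h i => nonpos_of_mul_nonpos_right (h i) (c.tw.ppos _)⟩

lemma dich {w : R.Aut} (hW : w ∈ R.W) (hw : ∀ γ, sg R p π a (w γ) = w (sg R p π a γ))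
    (i : Fin R.r) : (∀ j ∈ {j | π.SameCycle i j}, 0 ≤ w (R.α j)) ∨
      ∀ j ∈ {j | π.SameCycle i j}, w (R.α j) ≤ 0 := by
  by_cases h : w (R.α i) ≤ 0
  · exact Or.inr fun j hj => (c.sign hw hj).1 h
  · exact Or.inl fun j hj => (c.hR.sign _ (c.hR.map_mem hW (c.hR.simple j))).2.resolve_right
      fun h1 => h ((c.sign hw hj).2 h1)

/-- the Bruhat decomposition of the fixed points in rank one -/
theorem bruhat_VJ (i : Fin R.r) {y : G} (hy : y ∈ Γ.VJ {j | π.SameCycle i j}) (hσ : σ y = y) :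
    ∃ u ∈ Γ.U ⊓ fixP p σ, ∃ n ∈ fixP p σ, ∃ v ∈ Γ.UJ {j | π.SameCycle i j} ⊓ fixP p σ,
      y = u * n * v ∧ (n ∈ Γ.T ∨ ∃ w, R.Lg {j | π.SameCycle i j} w ∧ Γ.Rep n w) := by
  obtain ⟨u, hu, n, w, hw, hn, v, hv, h⟩ := c.hΓ.bruhatJ c.hR (J := {j | π.SameCycle i j})
    (mem_sup_left (RG.X_mono (fun _ h _ => h.2) hy))
  obtain ⟨h1, h2, h3⟩ := c.fix_bruhat (c.UJ_le _ hu) hn hv (h ▸ hσ)
  have h4 := c.U_fix (c.UJ_le _ hu) h1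
  have h5 := c.U_fix (c.Inv_le _ hv) h3
  refine ⟨u, ⟨c.UJ_le _ hu, h4⟩, n, ?_, v, ⟨RG.X_mono (fun _ h _ => c.hR.Inv_sub hw h) hv, h5⟩, h,
    (c.dich hn.mem_W (c.rep_fix hn h2) i).imp (fun h6 => ?_) fun h6 => ⟨w, ⟨hw, h6⟩, hn⟩⟩
  · have := mul_mem (mul_mem (inv_mem h4) (h ▸ c.VJ_fix hy hσ)) (inv_mem h5)
    simpa [mul_assoc] using this
  · exact c.hΓ.rep_one c.hR (c.hR.eq_one hw h6 ▸ hn)

theorem exists_nJ (i : Fin R.r) :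
    ∃ n ∈ fixP p σ, ∃ w, R.Lg {j | π.SameCycle i j} w ∧ Γ.Rep n w := by
  obtain ⟨y, hy, h1, h2⟩ := c.exists_y i
  obtain ⟨u, hu, n, hn, v, hv, h3, h4⟩ := c.bruhat_VJ i hy h1
  refine ⟨n, hn, h4.resolve_left fun h5 => h2 (c.V_Bo (c.VJ_le _ hy) ?_)⟩
  exact h3 ▸ mul_mem (mul_mem (c.U_le hu.1) (c.T_le h5)) (c.U_le (c.UJ_le _ hv.1))

theorem descent {w : R.Aut} (hW : w ∈ R.W) (hw : ∀ γ, sg R p π a (w γ) = w (sg R p π a γ))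
    (h1 : w ≠ 1) : ∃ s ∈ fixP p σ, ∃ i v, R.Lg {j | π.SameCycle i j} v ∧ Γ.Rep s v ∧
      R.len (w * v) < R.len w := by
  obtain ⟨i, hi⟩ : ∃ i, ¬0 ≤ w (R.α i) := by
    by_contra h
    exact h1 (c.hR.eq_one hW fun j _ => by_contra fun h2 => h ⟨j, h2⟩)
  have h2 := (c.dich hW hw i).resolve_left fun h => hi (h i (Equiv.Perm.SameCycle.refl π i))
  obtain ⟨s, hs, v, hv, h3⟩ := c.exists_nJ i
  refine ⟨s, hs, i, v, hv, h3, ?_⟩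
  have h4 := c.hR.len_mul hW h3.mem_W
  have h5 : v⁻¹ = v := inv_eq_of_mul_eq_one_right (c.hR.Lg_mul_self hv)
  have h6 : R.Inv v ⊆ R.Inv w := fun γ hγ => by
    rw [c.hR.Lg_Inv hv] at hγ
    exact ⟨hγ.1, hγ.2.1, map_nonpos h2 hγ.2.1 hγ.2.2⟩
  have h7 : 0 < R.len v := (Set.ncard_pos (RS.Pos_finite.subset (RS.cl_Inv v).1)).2
    ⟨_, c.hR.Lg_Inv hv ▸ al_PJ c.hR (Equiv.Perm.SameCycle.refl π i)⟩
  rw [h5, Set.inter_eq_self_of_subset_right h6] at h4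
  change _ + 2 * R.len v = _ at h4
  omega

theorem exists_repK {w : R.Aut} (hW : w ∈ R.W) (hw : ∀ γ, sg R p π a (w γ) = w (sg R p π a γ)) :
    ∃ n ∈ fixP p σ, Γ.Rep n w := by
  induction h : R.len w using Nat.strong_induction_on generalizing w with
  | _ m ih =>
    by_cases h1 : w = 1
    · exact ⟨1, one_mem _, h1 ▸ RG.rep_T (one_mem _)⟩
    obtain ⟨s, hs, i, v, -, h2, h3⟩ := c.descent hW hw h1
    obtain ⟨n, hn, h4⟩ := ih _ (h ▸ h3) (mul_mem hW h2.mem_W) (fun γ => by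
      rw [LinearEquiv.mul_apply, hw, c.rep_fix h2 (fixP_le hs), LinearEquiv.mul_apply]) rfl
    exact ⟨n * s⁻¹, mul_mem hn (inv_mem hs), by simpa using h4.mul h2.inv⟩

theorem exists_n0 : ∃ n ∈ fixP p σ, ∃ w, R.Lg Set.univ w ∧ Γ.Rep n w := by
  obtain ⟨w, hw⟩ := c.hR.exists_Lg Set.univ
  obtain ⟨n, -, hn⟩ := RG.exists_rep' (Γ := Γ) hw.1
  obtain ⟨w', h1, h2⟩ := c.sig_rep hn
  have h3 : w' = w := c.hR.Lg_unique ⟨h1.mem_W, fun j _ => c.tw.sg_nonpos.1 (by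
    rw [h2]
    exact c.hR.Lg_neg hw (c.tw.sg_nonneg.2 (RS.α_nonneg j)) fun _ h => (h trivial).elim)⟩ hw
  obtain ⟨n, hn, h4⟩ := c.exists_repK hw.1 (h3 ▸ h2)
  exact ⟨n, hn, w, hw, h4⟩

end SC

end Vale.Agent.P183CH3
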