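import Vale.Agent.P183CH3.Sig

/-!
Central series of unipotent groups built from root subgroups; Lang's theorem for such series.
-/

namespace Vale.Agent.P183CH3

open Subgroup Vale.Agent.P183CH Vale.Agent.P183A

variable {R : RS} {k : Type} [Field k] {G : Type} [Group G]

/-- the fixed points -/
def Fx (σ : G →* G) : Subgroup G := σ.eqLocus (MonoidHom.id G)

lemma mem_Fx {σ : G →* G} {g : G} : g ∈ Fx σ ↔ σ g = g := Iff.rfl

/-- the norm `z σ(z) ⋯ σ^{l-1}(z)` -/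
def nrm (σ : G →* G) (z : G) : ℕ → G
  | 0 => 1
  | l + 1 => nrm σ z l * σ^[l] z

lemma nrm_mem {σ : G →* G} {z : G} {Z : Subgroup G} (h : ∀ g ∈ Z, σ g ∈ Z) (hz : z ∈ Z) (l : ℕ) :
    σ^[l] z ∈ Z ∧ nrm σ z l ∈ Z := by
  induction l with
  | zero => exact ⟨hz, one_mem _⟩
  | succ l ih => exact ⟨Function.iterate_succ_apply' σ l z ▸ h _ ih.1, mul_mem ih.2 ih.1⟩

lemma sig_nrm (σ : G →* G) (z : G) (l : ℕ) : σ (nrm σ z l) = z⁻¹ * nrm σ z l * σ^[l] z := by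
  induction l with
  | zero => simp [nrm]
  | succ l ih => rw [nrm, map_mul, ih, Function.iterate_succ_apply', mul_assoc z⁻¹]

/-- Lang's property -/
def Lang (σ : G →* G) (Y : Subgroup G) : Prop := ∀ g ∈ Y, ∃ y ∈ Y, g = y * (σ y)⁻¹

lemma lang_step {σ : G →* G} {Y : Subgroup G} {s : Set G} (hYZ : Y ≤ closure s)
    (hσ : ∀ g ∈ closure s, σ g ∈ closure s)
    (hc : ∀ a ∈ closure s, ∀ b ∈ closure s, a * b * a⁻¹ * b⁻¹ ∈ Y) (hY : Lang σ Y)
    (hs : ∀ g ∈ s, ∃ y ∈ closure s, y⁻¹ * g * σ y ∈ Y) : Lang σ (closure s) := by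
  have hn : ∀ a ∈ closure s, ∀ y ∈ Y, a * y * a⁻¹ ∈ Y := fun a ha y hy => by
    simpa using mul_mem (hc a ha y (hYZ hy)) hy
  have key : ∀ g ∈ closure s, ∃ y ∈ closure s, y⁻¹ * g * σ y ∈ Y := by
    intro g hg
    induction hg using closure_induction with
    | mem g hg => exact hs g hg
    | one => exact ⟨1, one_mem _, by simp⟩
    | mul g h hg hh h1 h2 =>
      obtain ⟨y, hy, h1⟩ := h1
      obtain ⟨z, hz, h2⟩ := h2
      refine ⟨y * z, mul_mem hy hz, ?_⟩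
      convert mul_mem (hn _ (inv_mem hz) _ (mul_mem h1 (hc _ (inv_mem (hσ y hy)) h hh))) h2 using 1
      rw [map_mul]
      group
    | inv g hg h1 =>
      obtain ⟨y, hy, h1⟩ := h1
      refine ⟨y⁻¹, inv_mem hy, ?_⟩
      convert mul_mem (mul_mem (hc y hy _ (mul_mem (inv_mem hg) (inv_mem (hσ y hy))))
        (hc _ (inv_mem hg) _ (inv_mem (hσ y hy)))) (inv_mem h1) using 1
      rw [map_inv]
      group
  intro g hg
  obtain ⟨y, hy, h1⟩ := key g hg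
  obtain ⟨z, hz, h2⟩ := hY _ h1
  refine ⟨y * z, mul_mem hy (hYZ hz), ?_⟩
  calc g = y * (y⁻¹ * g * σ y) * (σ y)⁻¹ := by group
    _ = _ := by rw [h2, map_mul]; group

variable {Γ : RG R k G} {P S : Set R.Q} {γ : R.Q}

/-- `X γ` is central in `X P` modulo `X S` -/
def Cen (Γ : RG R k G) (P S : Set R.Q) (γ : R.Q) : Prop :=
  γ ∈ P ∧ ∀ t, ∀ u ∈ Γ.X P, Γ.x γ t * u * (Γ.x γ t)⁻¹ * u⁻¹ ∈ Γ.X S

lemma Cen.mono (h : Cen Γ P S γ) {S' : Set R.Q} (hS : S ⊆ S') : Cen Γ P S' γ :=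
  ⟨h.1, fun t u hu => RG.X_mono (fun _ h _ => hS h) (h.2 t u hu)⟩

/-- `X S` is normal in `X P` and consists of ordered products -/
structure Ly (Γ : RG R k G) (P S : Set R.Q) : Prop where
  pos : P ⊆ R.Pos
  sub : S ⊆ P
  nm : Nm (Γ.X P) (Γ.X S)
  lay : ∀ g ∈ Γ.X S, ∃ l : List (R.Q × k), (l.map Prod.fst).Nodup ∧ (∀ e ∈ l, e.1 ∈ S) ∧
    g = (l.map fun e => Γ.x e.1 e.2).prod

lemma X_empty : Γ.X ∅ = ⊥ := eq_bot_iff.2 (RG.X_le fun _ h => h.elim)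

lemma ly_empty (hP : P ⊆ R.Pos) : Ly Γ P ∅ := by
  refine ⟨hP, Set.empty_subset _, fun a _ y hy => ?_, fun g hg => ⟨[], by simp, by simp, ?_⟩⟩
  · rw [X_empty, mem_bot] at hy ⊢
    simp [hy]
  · rwa [X_empty, mem_bot] at hg

namespace Ly

variable (h : Ly Γ P S) (hΓ : Γ.Ok)
include h

lemma le : Γ.X S ≤ Γ.X P := RG.X_mono fun _ h1 _ => h.sub h1

include hΓ

lemma dec (hγ : γ ∈ P) {g : G} (hg : g ∈ Γ.X (insert γ S)) :
    ∃ t, g * (Γ.x γ t)⁻¹ ∈ Γ.X S := by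
  have h0 := (h.pos hγ).1
  induction hg using closure_induction with
  | mem g hg =>
    obtain ⟨δ, rfl | h1, h2, t, rfl⟩ := hg
    · exact ⟨t, by simp⟩
    · exact ⟨0, by simpa [hΓ.x_zero h0] using RG.x_mem h2 h1 t⟩
  | one => exact ⟨0, by simp [hΓ.x_zero h0]⟩
  | mul g g' _ _ h1 h2 =>
    obtain ⟨t, h1⟩ := h1
    obtain ⟨s, h2⟩ := h2
    refine ⟨t + s, ?_⟩
    convert mul_mem h1 (h.nm _ (RG.x_mem h0 hγ t) _ h2) using 1
    rw [hΓ.add _ h0]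
    group
  | inv g _ h1 =>
    obtain ⟨t, h1⟩ := h1
    refine ⟨-t, ?_⟩
    convert h.nm _ (inv_mem (RG.x_mem h0 hγ t)) _ (inv_mem h1) using 1
    rw [hΓ.x_neg h0]
    group

lemma zero (hγ : γ ∈ R.Pos) (hS : γ ∉ S) {t : k} (ht : Γ.x γ t ∈ Γ.X S) : t = 0 := by
  obtain ⟨l, h1, h2, h3⟩ := h.lay _ ht
  have := hΓ.uniq ((γ, -t) :: l) ?_ ?_ ?_ (γ, -t) List.mem_cons_self
  · exact neg_eq_zero.1 this
  · rw [List.map_cons, List.nodup_cons]
    refine ⟨fun h4 => ?_, h1⟩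
    obtain ⟨e, he, rfl⟩ := List.mem_map.1 h4
    exact hS (h2 e he)
  · intro e he
    rcases List.mem_cons.1 he with rfl | he
    exacts [hγ, h.pos (h.sub (h2 e he))]
  · rw [List.map_cons, List.prod_cons, ← h3, hΓ.x_neg hγ.1, inv_mul_cancel]

lemma ins (hc : Cen Γ P S γ) : Ly Γ P (insert γ S) := by
  by_cases hS : γ ∈ S
  · rwa [Set.insert_eq_of_mem hS]
  have h0 := (h.pos hc.1).1
  have hle : Γ.X S ≤ Γ.X (insert γ S) := RG.X_mono fun _ h1 _ => Or.inr h1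
  refine ⟨h.pos, Set.insert_subset hc.1 h.sub, fun u hu g hg => ?_, fun g hg => ?_⟩
  · obtain ⟨t, h1⟩ := h.dec hΓ hc.1 hg
    convert mul_mem (hle (mul_mem (h.nm u hu _ h1) (inv_mem (hc.2 t u hu))))
      (RG.x_mem h0 (Set.mem_insert γ S) t) using 1
    group
  · obtain ⟨t, h1⟩ := h.dec hΓ hc.1 hg
    obtain ⟨l, h2, h3, h4⟩ := h.lay _ h1
    refine ⟨l ++ [(γ, t)], ?_, fun e he => ?_, ?_⟩
    · rw [List.map_append, List.map_singleton, List.nodup_append_comm, List.singleton_append,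
        List.nodup_cons]
      refine ⟨fun h5 => ?_, h2⟩
      obtain ⟨e, he, rfl⟩ := List.mem_map.1 h5
      exact hS (h3 e he)
    · rcases List.mem_append.1 he with he | he
      · exact Or.inr (h3 e he)
      · exact Or.inl (by rw [List.mem_singleton.1 he])
    · rw [List.map_append, List.prod_append, ← h4]
      simp

lemma uni {O : Set R.Q} (hO : O.Finite) (hc : ∀ δ ∈ O, Cen Γ P S δ) : Ly Γ P (S ∪ O) := by
  induction O, hO using Set.Finite.induction_on with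
  | empty => rwa [Set.union_empty]
  | insert _ _ ih =>
    rw [Set.union_insert]
    exact (ih fun δ hδ => hc δ (Or.inr hδ)).ins hΓ
      ((hc _ (Set.mem_insert _ _)).mono Set.subset_union_left)

omit hΓ in
lemma cent {O : Set R.Q} (hc : ∀ δ ∈ O, Cen Γ P S δ) {g u : G} (hg : g ∈ Γ.X (S ∪ O))
    (hu : u ∈ Γ.X P) : g * u * g⁻¹ * u⁻¹ ∈ Γ.X S := by
  have hle : Γ.X (S ∪ O) ≤ Γ.X P := RG.X_mono fun δ h1 _ => h1.elim (h.sub ·) fun h2 => (hc δ h2).1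
  induction hg using closure_induction with
  | mem g hg =>
    obtain ⟨δ, h1 | h1, h2, t, rfl⟩ := hg
    · convert mul_mem (RG.x_mem h2 h1 t) (h.nm u hu _ (inv_mem (RG.x_mem h2 h1 t))) using 1
      group
    · exact (hc δ h1).2 t u hu
  | one => simp
  | mul g g' hg _ h1 h2 =>
    convert mul_mem (h.nm g (hle hg) _ h2) h1 using 1
    group
  | inv g hg h1 =>
    convert h.nm _ (inv_mem (hle hg)) _ (inv_mem h1) using 1
    group

/-- peeling off the roots of `O` -/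
lemma peel {O : Set R.Q} (hO : O.Finite) (hc : ∀ δ ∈ O, Cen Γ P S δ) (hd : ∀ δ ∈ O, δ ∉ S)
    {g : G} (hg : ∀ δ ∈ O, g ∈ Γ.X (S ∪ (O \ {δ}))) {O' : Set R.Q} (h1 : O' ⊆ O)
    (h2 : g ∈ Γ.X (S ∪ O')) : g ∈ Γ.X S := by
  induction O', hO.subset h1 using Set.Finite.induction_on with
  | empty => rwa [Set.union_empty] at h2
  | @insert δ O' hδ hf ih =>
    have h3 := Set.insert_subset_iff.1 h1
    rw [Set.union_insert] at h2
    obtain ⟨t, h4⟩ := (h.uni hΓ hf fun δ hδ => hc δ (h3.2 hδ)).dec hΓ (hc δ h3.1).1 h2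
    have h5 : g * (Γ.x δ t)⁻¹ ∈ Γ.X (S ∪ (O \ {δ})) := RG.X_mono (fun β hβ _ =>
      hβ.imp_right fun h => ⟨h3.2 h, fun e => hδ (e ▸ h)⟩) h4
    have h6 : t = 0 := (h.uni hΓ (O := O \ {δ}) (hO.subset Set.sdiff_subset)
      fun δ hδ => hc δ hδ.1).zero hΓ
      (h.pos (hc δ h3.1).1) (fun h => h.elim (hd δ h3.1) fun h => h.2 rfl)
      (by simpa using mul_mem (inv_mem h5) (hg δ h3.1))
    rw [h6, hΓ.x_zero (h.pos (hc δ h3.1).1).1, inv_one, mul_one] at h4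
    exact ih h3.2 h4

end Ly

open Classical in
/-- the coefficient of the root `γ` modulo `X S` -/
noncomputable def cf (Γ : RG R k G) (S : Set R.Q) (γ : R.Q) (g : G) : k :=
  if h : ∃ t, g * (Γ.x γ t)⁻¹ ∈ Γ.X S then h.choose else 0

lemma cf_spec {g : G} (h : ∃ t, g * (Γ.x γ t)⁻¹ ∈ Γ.X S) :
    g * (Γ.x γ (cf Γ S γ g))⁻¹ ∈ Γ.X S := by
  rw [cf, dif_pos h]
  exact h.choose_spec

lemma Ly.cf_eq (h : Ly Γ P S) (hΓ : Γ.Ok) (hγ : γ ∈ R.Pos) (hS : γ ∉ S) {g : G} {t : k}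
    (ht : g * (Γ.x γ t)⁻¹ ∈ Γ.X S) : cf Γ S γ g = t := by
  refine (sub_eq_zero.1 (h.zero hΓ hγ hS ?_)).symm
  convert mul_mem (inv_mem ht) (cf_spec ⟨t, ht⟩) using 1
  rw [sub_eq_add_neg, hΓ.add _ hγ.1, hΓ.x_neg hγ.1]
  group

end Vale.Agent.P183CH3
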