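import Vale.Agent.P183CH3.Step
import Vale.Agent.P183BD.CHI

/-!
The series of the fixed points of `U`.
-/

set_option linter.unusedSectionVars false

namespace Vale.Agent.P183CH3

open Subgroup Vale.Agent.P183CH Vale.Agent.P183A Vale.Agent.P183BD

variable {R : RS} {k : Type} [Field k] {G : Type} [Group G]

open Classical in
/-- a positive root of maximal height outside `S` -/
noncomputable def nxt (R : RS) (S : Set R.Q) : R.Q :=
  if h : ∃ γ, Mx R R.Pos S γ then h.choose else 0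

lemma nxt_spec {S : Set R.Q} (h : ¬R.Pos ⊆ S) : Mx R R.Pos S (nxt R S) := by
  rw [nxt, dif_pos (exists_mx Set.Subset.rfl h)]
  exact (exists_mx Set.Subset.rfl h).choose_spec

/-- the series -/
noncomputable def sr (R : RS) (p : ℕ) (π : Equiv.Perm (Fin R.r)) (a : Fin R.r → ℕ) : ℕ → Set R.Q
  | 0 => ∅
  | i + 1 => sr R p π a i ∪ ob R p π a (nxt R (sr R p π a i))

lemma fixP_le {p : ℕ} {σ : G →* G} {g : G} (hg : g ∈ fixP p σ) : σ g = g :=
  (closure_le (Fx σ)).2 (fun _ h => h.1) hg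

namespace SC

variable {Γ : RG R k G} {p : ℕ} {σ : G →* G} {π : Equiv.Perm (Fin R.r)} {a : Fin R.r → ℕ}
  {e f d : ℕ} [Fact p.Prime] [CharP k p] [IsAlgClosed k] (c : SC Γ p σ π a e f d)
include c

lemma U_fix {g : G} (hg : g ∈ Γ.U) (hσ : σ g = g) : g ∈ fixP p σ := by
  obtain ⟨m, hm⟩ := c.hΓ.U_pow c.hR p
  exact subset_closure ⟨hσ, m, hm g hg⟩

lemma st_Pos : ∀ δ ∈ R.Pos, rho R p π a δ ∈ R.Pos := fun _ h =>
  ⟨c.tw.rho_mem h.1, (c.tw.rho_nonneg h.1).2 h.2⟩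

lemma gd_sr (i : ℕ) (h : ∀ j < i, ¬R.Pos ⊆ sr R p π a j) :
    Gd Γ p σ π a R.Pos (sr R p π a i) ∧ i ≤ (sr R p π a i).ncard := by
  induction i with
  | zero => exact ⟨c.gd_empty RS.cl_Pos c.st_Pos, Nat.zero_le _⟩
  | succ i ih =>
    obtain ⟨h1, h2⟩ := ih fun j hj => h j (Nat.lt_succ_of_lt hj)
    have h3 := nxt_spec (h i i.lt_succ_self)
    have h4 := c.gd_step h1 h3
    exact ⟨h4, h2.trans_lt (Set.ncard_lt_ncard
      ⟨Set.subset_union_left, fun h5 => h3.2.1 (h5 (Or.inr ⟨0, rfl⟩))⟩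
      (RS.Pos_finite.subset h4.ly.sub))⟩

lemma sr_card (i : ℕ) (h : ∀ j < i, ¬R.Pos ⊆ sr R p π a j) : i ≤ R.Φ.card := by
  obtain ⟨h1, h2⟩ := c.gd_sr i h
  rw [← Set.ncard_coe_finset]
  exact h2.trans (Set.ncard_le_ncard (fun δ hδ => (h1.ly.sub hδ).1) (Finset.finite_toSet _))

theorem ser : ∃ m γ S κ, Ser c.hΓ p π a (fixP p σ) m γ S κ := by
  classical
  have hex : ∃ m, R.Pos ⊆ sr R p π a m := by
    by_contra h
    exact (c.sr_card (R.Φ.card + 1) fun j _ h1 => h ⟨j, h1⟩).not_gt (Nat.lt_succ_self _)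
  have h0 : ∀ i < Nat.find hex, ¬R.Pos ⊆ sr R p π a i := fun i hi => Nat.find_min hex hi
  have hg : ∀ i ≤ Nat.find hex, Gd Γ p σ π a R.Pos (sr R p π a i) := fun i hi =>
    (c.gd_sr i fun j hj => h0 j (hj.trans_le hi)).1
  have hm : ∀ i < Nat.find hex, Mx R R.Pos (sr R p π a i) (nxt R (sr R p π a i)) := fun i hi =>
    nxt_spec (h0 i hi)
  have mono : Monotone (sr R p π a) := monotone_nat_of_le_succ fun _ => Set.subset_union_left
  have lt : ∀ i < Nat.find hex, ∀ j < i, ∀ l,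
      nxt R (sr R p π a i) ≠ (rho R p π a)^[l] (nxt R (sr R p π a j)) := fun i hi j hj l h =>
    (hm i hi).2.1 (mono (Nat.succ_le_of_lt hj) (Or.inr ⟨l, h.symm⟩))
  refine ⟨Nat.find hex, fun i => nxt R (sr R p π a i), sr R p π a, fun i => cf Γ (sr R p π a i
    ∪ (ob R p π a (nxt R (sr R p π a i)) \ {nxt R (sr R p π a i)})) (nxt R (sr R p π a i)),
    c.sr_card _ h0, X_empty, ?_, fun i _ => RG.X_mono fun _ h _ => Or.inl h,
    fun i hi => (hm i hi).1, fun δ hδ => ?_, fun i hi j hj l h => ?_,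
    fun i hi x hx y hy => c.cf_add (hg i hi.le) (hm i hi) hx.1 hy.1,
    fun i hi x hx => c.cf_ker (hg i hi.le) (hm i hi) hx.1 (fixP_le hx.2),
    fun i hi t ht x hx => c.cf_conj (hg i hi.le) (hm i hi) ht.1 hx.1,
    fun i hi x hx y hy => ?_, fun i hi => ?_⟩
  · rw [Set.Subset.antisymm (hg _ le_rfl).ly.sub (Nat.find_spec hex), RG.U_eq]
  · have h1 : ∀ m, δ ∈ sr R p π a m → ∃ i < m, ∃ l,
        δ = (rho R p π a)^[l] (nxt R (sr R p π a i)) := by
      intro m h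
      induction m with
      | zero => exact h.elim
      | succ m ih =>
        rcases h with h | ⟨l, h⟩
        · obtain ⟨i, h1, h2⟩ := ih h
          exact ⟨i, Nat.lt_succ_of_lt h1, h2⟩
        · exact ⟨m, m.lt_succ_self, l, h.symm⟩
    exact h1 _ (Nat.find_spec hex hδ)
  · rcases lt_trichotomy i j with h1 | h1 | h1
    · refine absurd ?_ (lt j hj i h1 ((e - 1) * l))
      rw [h, c.iter_back (hm j hj).1.1]
    · exact h1
    · exact absurd h (lt i hi j h1 l)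
  · obtain ⟨ε, hε⟩ := c.cf_img (hg i hi.le) (hm i hi)
    have h1 := (hε _).1 ⟨x, hx.1, fixP_le hx.2, rfl⟩
    have h2 := (hε _).1 ⟨y, hy.1, fixP_le hy.2, rfl⟩
    apply mul_left_cancel₀ (unit_ne (k := k) ε)
    rw [← mul_assoc, h1, mul_left_comm, h2]
  · obtain ⟨g, h1, h2, h3⟩ := c.exists_nz (hg i hi.le) (hm i hi)
    exact ⟨g, ⟨h1, c.U_fix (RG.U_eq (Γ := Γ) ▸ (hg (i + 1) hi).ly.le h1) h2⟩, h3⟩

end SC

end Vale.Agent.P183CH3
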