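import Vale.Agent.P183CH3.Sg
import Vale.Agent.P183CH2.Main

/-!
The action of a Steinberg endomorphism on root elements, the torus and the monomial group.
-/

namespace Vale.Agent.P183CH3

open Matrix Subgroup Vale.Agent.P183CH Vale.Agent.P183A

variable {R : RS} {k : Type} [Field k] {G : Type} [Group G]

/-- the standing hypotheses -/
structure SC (Γ : RG R k G) (p : ℕ) (σ : G →* G) (π : Equiv.Perm (Fin R.r)) (a : Fin R.r → ℕ)
    (e f d : ℕ) : Prop where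
  hR : R.Ok
  hΓ : Γ.Ok
  hσ : Γ.St p σ π a e f d

lemma unit_pow (p : ℕ) [Fact p.Prime] [CharP k p] (ε : ℤˣ) (n : ℕ) :
    ((ε : ℤ) : k) ^ p ^ n = ((ε : ℤ) : k) := by
  rcases Int.units_eq_one_or ε with rfl | rfl
  · simp
  · simp [neg_one_pow_char_pow]

lemma unit_mul_self (ε : ℤˣ) : ((ε : ℤ) : k) * ((ε : ℤ) : k) = 1 := by
  rcases Int.units_eq_one_or ε with rfl | rfl <;> simp

lemma unit_ne (ε : ℤˣ) : ((ε : ℤ) : k) ≠ 0 := left_ne_zero_of_mul_eq_one (unit_mul_self ε)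

lemma zpow_inj [Infinite k] {m n : ℤ} (h : ∀ t : kˣ, t ^ m = t ^ n) : m = n := by
  by_contra hne
  have h1 : 0 < (m - n).natAbs := Int.natAbs_pos.2 (sub_ne_zero.2 hne)
  have h2 : (Set.univ : Set k) ⊆ insert 0 (Polynomial.nthRootsFinset (m - n).natAbs (1 : k)) := by
    intro t _
    by_cases ht : t = 0
    · exact Or.inl ht
    · refine Or.inr ((Polynomial.mem_nthRootsFinset h1 _).2 ?_)
      have h3 : Units.mk0 t ht ^ (m - n) = 1 := by rw [zpow_sub, h, mul_inv_cancel]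
      have h4 : Units.mk0 t ht ^ (m - n).natAbs = 1 := pow_natAbs_eq_one.2 h3
      simpa using congrArg Units.val h4
  exact Set.infinite_univ (((Finset.finite_toSet _).insert 0).subset h2)

lemma exists_root [IsAlgClosed k] (p : ℕ) [Fact p.Prime] (n : ℕ) (u : k) : ∃ t, t ^ p ^ n = u :=
  IsAlgClosed.exists_pow_nat_eq u (pow_pos (Fact.out : p.Prime).pos n)

namespace SC

variable {Γ : RG R k G} {p : ℕ} {σ : G →* G} {π : Equiv.Perm (Fin R.r)} {a : Fin R.r → ℕ}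
  {e f d : ℕ} [Fact p.Prime] [CharP k p] (c : SC Γ p σ π a e f d)
include c

lemma sig_n (i : Fin R.r) : σ (Γ.n i) = Γ.n (π i) := by
  simp only [RG.n, map_mul, c.hσ.pos, c.hσ.neg, one_pow, neg_one_pow_char_pow]

lemma sig_h (i : Fin R.r) (t : kˣ) : σ (Γ.h i t) = Γ.h (π i) (t ^ p ^ a i) := by
  have h1 := congrArg σ (c.hΓ.sl i t)
  have h2 := c.hΓ.sl (π i) (t ^ p ^ a i)
  simp only [map_mul, c.hσ.pos, c.hσ.neg, c.sig_n] at h1
  rw [neg_pow, neg_one_pow_char_pow, neg_one_mul, ← Units.val_pow_eq_pow_val,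
    ← Units.val_pow_eq_pow_val, inv_pow, h2] at h1
  exact (mul_right_cancel h1).symm

omit [Fact p.Prime] [CharP k p] in
lemma iter_al (i : Fin R.r) (l : ℕ) : ∃ b : ℕ,
    (sg R p π a)^[l] (R.α (π^[l] i)) = (p : ℤ) ^ b • R.α i ∧
      ∀ t, σ^[l] (Γ.x (R.α i) t) = Γ.x (R.α (π^[l] i)) (t ^ p ^ b) := by
  induction l with
  | zero => exact ⟨0, by simp, by simp⟩
  | succ l ih =>
    obtain ⟨b, h1, h2⟩ := ih
    refine ⟨b + a (π^[l] i), ?_, fun t => ?_⟩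
    · rw [Function.iterate_succ_apply, Function.iterate_succ_apply', sg_al, Tw.iter_smul, h1,
        smul_smul, ← pow_add, add_comm]
    · rw [Function.iterate_succ_apply', h2, c.hσ.pos, Function.iterate_succ_apply', ← pow_mul,
        ← pow_add]

variable [IsAlgClosed k]

theorem tw : Tw R p π a e f := by
  have hp := (Fact.out : p.Prime).one_lt
  refine ⟨c.hR, hp, fun i j => zpow_inj (k := k) fun t => ?_, c.hσ.epos, c.hσ.ele, c.hσ.fpos,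
    fun γ => ?_⟩
  · have h1 := congrArg σ (c.hΓ.hx j t _ (c.hR.simple i) 1)
    simp only [map_mul, map_inv, c.sig_h, c.hσ.pos, one_pow, mul_one] at h1
    rw [c.hΓ.hx _ _ _ (c.hR.simple _), mul_one] at h1
    have h2 := c.hΓ.x_inj c.hR (c.hR.simple _) h1
    rw [← Units.val_pow_eq_pow_val, Units.val_inj, pr_al, pr_al, ← zpow_natCast, ← zpow_natCast,
      ← _root_.zpow_mul, ← _root_.zpow_mul] at h2
    push_cast at h2
    exact h2.symm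
  · have h1 : ∀ i, (sg R p π a)^[e] (R.α i) = (p : ℤ) ^ f • R.α i := fun i => by
      obtain ⟨b, h1, h2⟩ := c.iter_al i e
      simp only [c.hσ.frob _ (c.hR.simple i)] at h2
      have h3 := c.hΓ.x_eq c.hR (c.hR.simple _) (c.hR.simple _) (by simp) (h2 1)
      rw [← h3] at h1 h2
      have h4 : ((p ^ f : ℕ) : ℤ) = (p ^ b : ℕ) := zpow_inj (k := k) fun t => by
        rw [zpow_natCast, zpow_natCast, ← Units.val_inj, Units.val_pow_eq_pow_val,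
          Units.val_pow_eq_pow_val]
        exact c.hΓ.x_inj c.hR (c.hR.simple _) (h2 t)
      push_cast at h4
      rw [h1, h4]
    rw [← Module.End.pow_apply]
    conv_lhs => rw [RS.eq_sum γ]
    conv_rhs => rw [RS.eq_sum γ]
    rw [map_sum, Finset.smul_sum]
    refine Finset.sum_congr rfl fun i _ => ?_
    rw [map_smul, Module.End.pow_apply, h1, smul_comm]

theorem sig_x : ∀ γ ∈ R.Φ, ∃ ε : ℤˣ, ∀ u,
    σ (Γ.x γ u) = Γ.x (rho R p π a γ) (((ε : ℤ) : k) * u ^ p ^ lv R p π a γ) ∧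
    σ (Γ.x (-γ) u) = Γ.x (-rho R p π a γ) (((ε : ℤ) : k) * u ^ p ^ lv R p π a γ) := by
  refine root_ind c.hR (fun i => ⟨1, fun u => ?_⟩) fun i γ hγ ⟨ε, h⟩ => ?_
  · simp [(c.tw.rho_al i).1, (c.tw.rho_al i).2, c.hσ.pos, c.hσ.neg]
  · obtain ⟨ε₁, h1⟩ := c.hΓ.nx i γ hγ
    obtain ⟨ε₂, h2⟩ := c.hΓ.nx (π i) _ (c.tw.rho_mem hγ)
    refine ⟨ε₂ * ε * ε₁, fun u => ?_⟩
    have e1 : u = ((ε₁ : ℤ) : k) * (((ε₁ : ℤ) : k) * u) := by
      rw [← mul_assoc, unit_mul_self, one_mul]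
    have e2 : ((ε₂ : ℤ) : k) * (((ε : ℤ) : k) * (((ε₁ : ℤ) : k) * u) ^ p ^ lv R p π a γ)
        = ((ε₂ * ε * ε₁ : ℤˣ) : ℤ) * u ^ p ^ lv R p π a γ := by
      rw [mul_pow, unit_pow]
      push_cast
      ring
    rw [(c.tw.rho_s i hγ).1, (c.tw.rho_s i hγ).2, ← e2, ← (h2 _).1, ← (h2 _).2, ← (h _).1,
      ← (h _).2, ← c.sig_n, ← map_inv, ← map_mul, ← map_mul, ← map_mul, ← map_mul, (h1 _).1,
      (h1 _).2, ← e1]
    exact ⟨rfl, rfl⟩

theorem sig_iter {γ : R.Q} (hγ : γ ∈ R.Φ) (l : ℕ) : ∃ ε : ℤˣ, ∀ u,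
    σ^[l] (Γ.x γ u) = Γ.x ((rho R p π a)^[l] γ) (((ε : ℤ) : k) * u ^ p ^ lvs R p π a γ l) := by
  induction l with
  | zero => exact ⟨1, by simp [lvs]⟩
  | succ l ih =>
    obtain ⟨ε, h⟩ := ih
    obtain ⟨ε₁, h1⟩ := c.sig_x _ (c.tw.iter_mem hγ l)
    refine ⟨ε₁ * ε, fun u => ?_⟩
    rw [Function.iterate_succ_apply', h, (h1 _).1, Function.iterate_succ_apply', mul_pow, unit_pow,
      Tw.lvs_succ, pow_add, pow_mul]
    push_cast
    rw [mul_assoc]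

lemma exists_pre {γ : R.Q} (hγ : γ ∈ R.Φ) (u : k) :
    ∃ t, σ (Γ.x γ t) = Γ.x (rho R p π a γ) u := by
  obtain ⟨ε, h⟩ := c.sig_x γ hγ
  obtain ⟨t, ht⟩ := exists_root p (lv R p π a γ) (((ε : ℤ) : k) * u)
  exact ⟨t, by rw [(h t).1, ht, ← mul_assoc, unit_mul_self, one_mul]⟩

lemma sig_X {S S' : Set R.Q} (h : ∀ γ ∈ S, γ ∈ R.Φ → rho R p π a γ ∈ S') {g : G}
    (hg : g ∈ Γ.X S) : σ g ∈ Γ.X S' :=
  RG.X_le (K := (Γ.X S').comap σ) (fun γ hγ h1 u => by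
    obtain ⟨ε, h2⟩ := c.sig_x γ h1
    rw [mem_comap, (h2 u).1]
    exact RG.x_mem (c.tw.rho_mem h1) (h γ hγ h1) _) hg

lemma sig_U {g : G} (hg : g ∈ Γ.U) : σ g ∈ Γ.U :=
  c.sig_X (fun _ hγ h1 => (c.tw.rho_nonneg h1).2 hγ) hg

lemma sig_V {g : G} (hg : g ∈ Γ.V) : σ g ∈ Γ.V :=
  c.sig_X (fun _ hγ h1 => (c.tw.rho_nonpos h1).2 hγ) hg

omit [IsAlgClosed k] in
lemma sig_T {g : G} (hg : g ∈ Γ.T) : σ g ∈ Γ.T :=
  (closure_le (Γ.T.comap σ)).2 (by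
    rintro _ ⟨i, t, rfl⟩
    exact mem_comap.2 (c.sig_h i t ▸ RG.h_mem _ _)) hg

theorem sig_rep {n : G} {w : R.Aut} (h : Γ.Rep n w) :
    ∃ w', Γ.Rep (σ n) w' ∧ ∀ γ, sg R p π a (w' γ) = w (sg R p π a γ) := by
  have key : ∀ z ∈ closure ({x | ∃ i, x = (Γ.n i, R.sE i)} ∪ {x | x.1 ∈ Γ.T ∧ x.2 = 1} :
      Set (G × R.Aut)), ∃ w', Γ.Rep (σ z.1) w' ∧ ∀ γ, sg R p π a (w' γ) = z.2 (sg R p π a γ) := by
    intro z hz
    induction hz using closure_induction with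
    | mem z hz =>
      rcases hz with ⟨i, rfl⟩ | ⟨h1, h2⟩
      · exact ⟨R.sE (π i), c.sig_n i ▸ RG.rep_n _, fun γ => by
          rw [c.hR.sE_apply, c.hR.sE_apply, c.tw.sg_s]⟩
      · exact ⟨1, RG.rep_T (c.sig_T h1), fun γ => by rw [h2]; rfl⟩
    | one => exact ⟨1, RG.rep_T (c.sig_T (one_mem _)), fun γ => rfl⟩
    | mul y z _ _ hy hz =>
      obtain ⟨w₁, h1, h2⟩ := hy
      obtain ⟨w₂, h3, h4⟩ := hz
      exact ⟨w₁ * w₂, by rw [Prod.fst_mul, map_mul]; exact h1.mul h3, fun γ => by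
        rw [Prod.snd_mul, LinearEquiv.mul_apply, LinearEquiv.mul_apply, h2, h4]⟩
    | inv z _ hz =>
      obtain ⟨w₁, h1, h2⟩ := hz
      refine ⟨w₁⁻¹, by rw [Prod.fst_inv, map_inv]; exact h1.inv, fun γ => ?_⟩
      apply z.2.injective
      rw [← h2, Prod.snd_inv, ← LinearEquiv.mul_apply, ← LinearEquiv.mul_apply, mul_inv_cancel,
        mul_inv_cancel]
      rfl
  exact key (n, w) h

lemma sig_N {g : G} (hg : g ∈ Γ.N) : σ g ∈ Γ.N := by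
  obtain ⟨w, -, h⟩ := RG.exists_rep (RG.NJ_univ (Γ := Γ) ▸ hg)
  exact (c.sig_rep h).choose_spec.1.mem_N

lemma rep_fix {n : G} {w : R.Aut} (h : Γ.Rep n w) (hn : σ n = n) (γ : R.Q) :
    sg R p π a (w γ) = w (sg R p π a γ) := by
  obtain ⟨w', h1, h2⟩ := c.sig_rep h
  rw [hn] at h1
  rw [← h2, c.hΓ.rep_unique c.hR h h1]

theorem chi_sig (γ : R.Q) {t : G} (ht : t ∈ Γ.T) :
    c.hΓ.chi γ (σ t) = c.hΓ.chi (sg R p π a γ) t := by
  induction ht using closure_induction with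
  | mem t ht =>
    obtain ⟨i, u, rfl⟩ := ht
    rw [c.sig_h, c.hΓ.chi_h c.hR, c.hΓ.chi_h c.hR, c.tw.pr_sg, _root_.zpow_mul, ← zpow_natCast]
    push_cast
    rfl
  | one => rw [map_one, c.hΓ.chi_one c.hR, c.hΓ.chi_one c.hR]
  | mul y z hy hz h1 h2 =>
    rw [map_mul, c.hΓ.chi_mul c.hR _ (c.sig_T hy) (c.sig_T hz), c.hΓ.chi_mul c.hR _ hy hz, h1, h2]
  | inv z hz h1 => rw [map_inv, c.hΓ.chi_inv c.hR _ (c.sig_T hz), c.hΓ.chi_inv c.hR _ hz, h1]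

lemma chi_rho {γ : R.Q} (hγ : γ ∈ R.Φ) {t : G} (ht : t ∈ Γ.T) (hσ : σ t = t) :
    c.hΓ.chi (rho R p π a γ) t = c.hΓ.chi γ t ^ p ^ lv R p π a γ := by
  conv_lhs => rw [← hσ]
  rw [c.chi_sig _ ht, c.tw.sg_rho hγ, c.hΓ.chi_smul, ← zpow_natCast]
  push_cast
  rfl

lemma chi_iter {γ : R.Q} (hγ : γ ∈ R.Φ) {t : G} (ht : t ∈ Γ.T) (hσ : σ t = t) (l : ℕ) :
    c.hΓ.chi ((rho R p π a)^[l] γ) t = c.hΓ.chi γ t ^ p ^ lvs R p π a γ l := by
  induction l with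
  | zero => simp [lvs]
  | succ l ih =>
    rw [Function.iterate_succ_apply', c.chi_rho (c.tw.iter_mem hγ l) ht hσ, ih, Tw.lvs_succ,
      pow_add, pow_mul]

lemma chi_lQ {γ : R.Q} (hγ : γ ∈ R.Φ) {t : G} (ht : t ∈ Γ.T) (hσ : σ t = t) :
    c.hΓ.chi γ t ^ p ^ lQ R p π a γ = c.hΓ.chi γ t := by
  rw [lQ, ← c.chi_iter hγ ht hσ, Tw.iter_len]

/-- `σ ^ e` is the Frobenius map of the torus -/
theorem iter_T {t : G} (ht : t ∈ Γ.T) : σ^[e] t = t ^ p ^ f := by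
  have h0 : ∀ l i u, σ^[l] (Γ.h i u) = Γ.h (π^[l] i) (u ^ p ^ lvs R p π a (R.α i) l) ∧
      (rho R p π a)^[l] (R.α i) = R.α (π^[l] i) := fun l i u => by
    induction l with
    | zero => simp [lvs]
    | succ l ih =>
      rw [Function.iterate_succ_apply', ih.1, c.sig_h, Function.iterate_succ_apply', Tw.lvs_succ,
        Function.iterate_succ_apply', ih.2, (c.tw.rho_al _).1, (c.tw.rho_al _).2, pow_add, pow_mul]
      exact ⟨rfl, rfl⟩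
  induction ht using closure_induction with
  | mem t ht =>
    obtain ⟨i, u, rfl⟩ := ht
    rw [(h0 e i u).1, c.tw.pi_e, (c.tw.iter_e (c.hR.simple i)).2, map_pow]
  | one => rw [iterate_map_one, one_pow]
  | mul y z hy hz h1 h2 =>
    rw [iterate_map_mul, h1, h2, (show Commute y z from c.hΓ.T_comm hy hz).mul_pow]
  | inv z hz h1 => rw [iterate_map_inv, h1, inv_pow]

lemma fix_T_pow {t : G} (ht : t ∈ Γ.T) (hσ : σ t = t) : t ^ (p ^ f - 1) = 1 := by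
  have h1 := c.iter_T ht
  rw [Function.iterate_fixed hσ] at h1
  have h2 : p ^ f = p ^ f - 1 + 1 :=
    (Nat.sub_add_cancel (pow_pos (Fact.out : p.Prime).pos f)).symm
  rw [h2, pow_succ] at h1
  exact mul_eq_right.1 h1.symm

end SC

end Vale.Agent.P183CH3
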