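import Vale.Agent.P183CH3.Lay

/-!
One step of the series: adding the orbit of a root of maximal height.
-/

set_option linter.unusedSectionVars false

namespace Vale.Agent.P183CH3

open Subgroup Vale.Agent.P183CH Vale.Agent.P183A

variable {R : RS} {k : Type} [Field k] {G : Type} [Group G]

/-- the orbit of a root -/
def ob (R : RS) (p : ℕ) (π : Equiv.Perm (Fin R.r)) (a : Fin R.r → ℕ) (γ : R.Q) : Set R.Q :=
  Set.range fun l => (rho R p π a)^[l] γ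

/-- the terms of the series -/
structure Gd (Γ : RG R k G) (p : ℕ) (σ : G →* G) (π : Equiv.Perm (Fin R.r)) (a : Fin R.r → ℕ)
    (P S : Set R.Q) : Prop where
  cl : R.Cl P
  stP : ∀ δ ∈ P, rho R p π a δ ∈ P
  ly : Ly Γ P S
  st : ∀ δ ∈ S, rho R p π a δ ∈ S
  lang : Lang σ (Γ.X S)

/-- `γ` is a root of maximal height in `P \ S` -/
def Mx (R : RS) (P S : Set R.Q) (γ : R.Q) : Prop :=
  γ ∈ P ∧ γ ∉ S ∧ ∀ δ ∈ P, R.ht γ < R.ht δ → δ ∈ S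

lemma iter_st {f : R.Q → R.Q} {S : Set R.Q} (h : ∀ δ ∈ S, f δ ∈ S) {δ : R.Q} (hδ : δ ∈ S)
    (l : ℕ) : f^[l] δ ∈ S := Set.MapsTo.iterate (f := f) h l hδ

lemma exists_as [IsAlgClosed k] {q : ℕ} (hq : 1 < q) (ε : ℤˣ) (u : k) :
    ∃ t, t - ((ε : ℤ) : k) * t ^ q = u := by
  have h1 : (Polynomial.C ((ε : ℤ) : k) * Polynomial.X ^ q
      + (Polynomial.C u - Polynomial.X)).degree = (q : WithBot ℕ) := by
    rw [Polynomial.degree_add_eq_left_of_degree_lt, Polynomial.degree_C_mul_X_pow q (unit_ne ε)]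
    rw [Polynomial.degree_C_mul_X_pow q (unit_ne ε)]
    refine lt_of_le_of_lt (Polynomial.degree_sub_le _ _) (max_lt
      (Polynomial.degree_C_le.trans_lt ?_) (Polynomial.degree_X_le.trans_lt ?_))
    · exact_mod_cast zero_lt_one.trans hq
    · exact_mod_cast hq
  obtain ⟨t, ht⟩ := IsAlgClosed.exists_root _ (h1.trans_ne (by
    exact_mod_cast (zero_lt_one.trans hq).ne'))
  refine ⟨t, ?_⟩
  simp only [Polynomial.IsRoot.def, Polynomial.eval_add, Polynomial.eval_mul, Polynomial.eval_C,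
    Polynomial.eval_pow, Polynomial.eval_X, Polynomial.eval_sub] at ht
  linear_combination -ht

lemma exists_fix [IsAlgClosed k] {q : ℕ} (hq : 1 < q) (ε : ℤˣ) :
    ∃ t : k, t ≠ 0 ∧ ((ε : ℤ) : k) * t ^ q = t := by
  obtain ⟨q, rfl⟩ : ∃ r, q = r + 1 := ⟨q - 1, by omega⟩
  obtain ⟨t, ht⟩ := IsAlgClosed.exists_pow_nat_eq ((ε : ℤ) : k) (show 0 < q by omega)
  refine ⟨t, fun h => unit_ne (k := k) ε ?_, ?_⟩
  · rw [← ht, h, zero_pow (by omega)]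
  · rw [pow_succ, ht, ← mul_assoc, unit_mul_self, one_mul]

namespace SC

variable {Γ : RG R k G} {p : ℕ} {σ : G →* G} {π : Equiv.Perm (Fin R.r)} {a : Fin R.r → ℕ}
  {e f d : ℕ} [Fact p.Prime] [CharP k p] [IsAlgClosed k] (c : SC Γ p σ π a e f d)
  {P S : Set R.Q} {γ : R.Q}
include c

lemma iter_X {S S' : Set R.Q} {l : ℕ} (h : ∀ γ ∈ S, γ ∈ R.Φ → (rho R p π a)^[l] γ ∈ S') {g : G}
    (hg : g ∈ Γ.X S) : σ^[l] g ∈ Γ.X S' := by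
  induction hg using closure_induction with
  | mem g hg =>
    obtain ⟨γ, hγ, h1, u, rfl⟩ := hg
    obtain ⟨ε, h2⟩ := c.sig_iter h1 l
    rw [h2]
    exact RG.x_mem (c.tw.iter_mem h1 l) (h γ hγ h1) _
  | one => rw [iterate_map_one]; exact one_mem _
  | mul _ _ _ _ h1 h2 => rw [iterate_map_mul]; exact mul_mem h1 h2
  | inv _ _ h1 => rw [iterate_map_inv]; exact inv_mem h1

lemma iter_back {δ : R.Q} (hδ : δ ∈ R.Φ) (l : ℕ) :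
    (rho R p π a)^[(e - 1) * l] ((rho R p π a)^[l] δ) = δ := by
  rw [← Function.iterate_add_apply, ← Nat.succ_mul, Nat.succ_eq_add_one,
    Nat.sub_add_cancel c.hσ.epos]
  exact Function.IsPeriodicPt.mul_const (c.tw.iter_e hδ).1 l

lemma iter_inj {γ δ : R.Q} (hγ : γ ∈ R.Φ) (hδ : δ ∈ R.Φ) {l : ℕ}
    (h : (rho R p π a)^[l] γ = (rho R p π a)^[l] δ) : γ = δ := by
  rw [← c.iter_back hγ l, h, c.iter_back hδ]

lemma surj_X (hP : ∀ δ ∈ P, rho R p π a δ ∈ P) {u : G} (hu : u ∈ Γ.X P) :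
    ∃ v ∈ Γ.X P, σ v = u :=
  RG.X_le (K := (Γ.X P).map σ) (fun δ hδ h1 s => by
    obtain ⟨t, ht⟩ := c.exists_pre (c.tw.iter_mem h1 (e - 1)) s
    rw [c.tw.rho_surj h1] at ht
    exact ⟨_, RG.x_mem (c.tw.iter_mem h1 _) (iter_st hP hδ _) t, ht⟩) hu

lemma gd_empty (hP : R.Cl P) (h : ∀ δ ∈ P, rho R p π a δ ∈ P) : Gd Γ p σ π a P ∅ :=
  ⟨hP, h, ly_empty hP.1, fun _ h => h.elim, fun g hg => ⟨1, one_mem _, by
    rw [X_empty, mem_bot] at hg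
    simp [hg]⟩⟩

variable (h : Gd Γ p σ π a P S) (hγ : Mx R P S γ)
include h hγ

lemma cen_ob : ∀ δ ∈ ob R p π a γ, Cen Γ P S δ := by
  rintro _ ⟨l, rfl⟩
  induction l with
  | zero =>
    change Cen Γ P S γ
    have h1 : ∀ {β δ : R.Q} {m n : ℕ}, β ∈ P → δ ∈ P → 0 < m → 0 < n →
        R.ht β < R.ht (m • β + n • δ) ∧ R.ht δ < R.ht (m • β + n • δ) := by
      intro β δ m n hβ hδ hm hn
      have h2 := c.hR.ht_pos (h.cl.1 hβ)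
      have h3 := c.hR.ht_pos (h.cl.1 hδ)
      have h4 : (1 : ℤ) ≤ m := by exact_mod_cast hm
      have h5 : (1 : ℤ) ≤ n := by exact_mod_cast hn
      rw [RS.ht_add, RS.ht_nsmul, RS.ht_nsmul]
      constructor <;> nlinarith
    have h2 := c.hΓ.comm_X c.hR (S := {γ}) (S' := P) (S'' := {δ | δ ∈ P ∧ R.ht γ < R.ht δ})
      (Set.singleton_subset_iff.2 (h.cl.1 hγ.1)) h.cl.1 (fun _ hδ => h.cl.1 hδ.1)
      (fun _ hβ δ hδ m n hm hn hr => by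
        rw [hβ] at hr ⊢
        exact ⟨h.cl.2 _ hγ.1 _ hδ m n hm hn hr, (h1 hγ.1 hδ hm hn).1⟩)
      (fun _ hβ δ hδ m n hm hn hr => by
        rw [hβ] at hr ⊢
        exact ⟨h.cl.2 _ hγ.1 _ hδ.1 m n hm hn hr, (h1 hγ.1 hδ.1 hm hn).1⟩)
      (fun _ hβ δ hδ m n hm hn hr =>
        ⟨h.cl.2 _ hβ _ hδ.1 m n hm hn hr, hδ.2.trans (h1 hβ hδ.1 hm hn).2⟩)
    refine ⟨hγ.1, fun t u hu => ?_⟩
    have h3 := h2 (commutator_mem_commutator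
      (RG.x_mem (Γ := Γ) (S := {γ}) (h.cl.1 hγ.1).1 rfl t) hu)
    rw [commutatorElement_def] at h3
    exact RG.X_mono (fun δ hδ _ => hγ.2.2 δ hδ.1 hδ.2) h3
  | succ l ih =>
    simp only [Function.iterate_succ_apply'] at ih ⊢
    refine ⟨h.stP _ ih.1, fun t u hu => ?_⟩
    obtain ⟨s, hs⟩ := c.exists_pre (h.cl.1 ih.1).1 t
    obtain ⟨v, hv, rfl⟩ := c.surj_X h.stP hu
    simpa only [map_mul, map_inv, hs] using c.sig_X (fun δ hδ _ => h.st δ hδ) (ih.2 s v hv)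

lemma ob_not : ∀ δ ∈ ob R p π a γ, δ ∉ S := by
  rintro _ ⟨l, rfl⟩ h1
  exact hγ.2.1 (c.iter_back (h.cl.1 hγ.1).1 l ▸ iter_st h.st h1 _)

lemma ob_fin : (ob R p π a γ).Finite :=
  RS.Pos_finite.subset fun δ hδ => h.cl.1 (c.cen_ob h hγ δ hδ).1

omit c hγ in
lemma st_ob : ∀ δ ∈ S ∪ ob R p π a γ, rho R p π a δ ∈ S ∪ ob R p π a γ := by
  rintro δ (h1 | ⟨l, rfl⟩)
  exacts [Or.inl (h.st δ h1), Or.inr ⟨l + 1, Function.iterate_succ_apply' _ _ _⟩]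

theorem gd_step : Gd Γ p σ π a P (S ∪ ob R p π a γ) := by
  have h1 := h.ly.uni c.hΓ (c.ob_fin h hγ) (c.cen_ob h hγ)
  have hs : ∀ g ∈ Γ.X (S ∪ ob R p π a γ), σ g ∈ Γ.X (S ∪ ob R p π a γ) := fun g hg =>
    c.sig_X (fun δ hδ _ => st_ob h δ hδ) hg
  have hc : ∀ g ∈ Γ.X (S ∪ ob R p π a γ), ∀ u ∈ Γ.X (S ∪ ob R p π a γ),
      g * u * g⁻¹ * u⁻¹ ∈ Γ.X S := fun g hg u hu => h.ly.cent (c.cen_ob h hγ) hg (h1.le hu)
  refine ⟨h.cl, h.stP, h1, st_ob h, lang_step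
    (RG.X_mono (Γ := Γ) (S' := S ∪ ob R p π a γ) fun _ h _ => Or.inl h) hs hc h.lang ?_⟩
  rintro _ ⟨δ, h2, h3, u, rfl⟩
  obtain ⟨t, rfl⟩ := exists_as (Nat.one_lt_pow c.hσ.fpos.ne' c.tw.one_lt) 1 u
  have hz := RG.x_mem (Γ := Γ) h3 h2 t
  have h4 := nrm_mem hs hz e
  refine ⟨_, h4.2, ?_⟩
  rw [sig_nrm, Units.val_one, Int.cast_one, one_mul, sub_eq_add_neg, c.hΓ.add _ h3, c.hΓ.x_neg h3,
    ← c.hσ.frob _ h3]
  convert mul_mem (h.ly.nm _ (inv_mem (h1.le h4.2)) _ (hc _ hz _ (inv_mem h4.1)))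
    (hc _ (inv_mem h4.2) _ (inv_mem h4.1)) using 1
  group

lemma ly_diff (δ : R.Q) : Ly Γ P (S ∪ (ob R p π a γ \ {δ})) :=
  h.ly.uni c.hΓ ((c.ob_fin h hγ).subset Set.sdiff_subset) fun β hβ => c.cen_ob h hγ β hβ.1

omit c h in
lemma not_diff : γ ∉ S ∪ (ob R p π a γ \ {γ}) := fun h1 => h1.elim hγ.2.1 fun h2 => h2.2 rfl

lemma cf_mem {g : G} (hg : g ∈ Γ.X (S ∪ ob R p π a γ)) :
    g * (Γ.x γ (cf Γ (S ∪ (ob R p π a γ \ {γ})) γ g))⁻¹ ∈ Γ.X (S ∪ (ob R p π a γ \ {γ})) := by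
  refine cf_spec ((c.ly_diff h hγ γ).dec c.hΓ hγ.1 (RG.X_mono (fun δ hδ _ => ?_) hg))
  by_cases h1 : δ = γ
  exacts [Or.inl h1, Or.inr (hδ.imp_right fun h => ⟨h, h1⟩)]

lemma cf_eq {g : G} {t : k} (ht : g * (Γ.x γ t)⁻¹ ∈ Γ.X (S ∪ (ob R p π a γ \ {γ}))) :
    cf Γ (S ∪ (ob R p π a γ \ {γ})) γ g = t :=
  (c.ly_diff h hγ γ).cf_eq c.hΓ (h.cl.1 hγ.1) (not_diff hγ) ht

lemma cf_add {g g' : G} (hg : g ∈ Γ.X (S ∪ ob R p π a γ)) (hg' : g' ∈ Γ.X (S ∪ ob R p π a γ)) :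
    cf Γ (S ∪ (ob R p π a γ \ {γ})) γ (g * g')
      = cf Γ (S ∪ (ob R p π a γ \ {γ})) γ g + cf Γ (S ∪ (ob R p π a γ \ {γ})) γ g' := by
  have h0 := (h.cl.1 hγ.1).1
  refine c.cf_eq h hγ ?_
  convert mul_mem (c.cf_mem h hγ hg) ((c.ly_diff h hγ γ).nm _ (RG.x_mem h0 hγ.1
    (cf Γ (S ∪ (ob R p π a γ \ {γ})) γ g)) _ (c.cf_mem h hγ hg')) using 1
  rw [c.hΓ.add _ h0]
  group

lemma cf_conj {g t : G} (ht : t ∈ Γ.T) (hg : g ∈ Γ.X (S ∪ ob R p π a γ)) :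
    cf Γ (S ∪ (ob R p π a γ \ {γ})) γ (t * g * t⁻¹)
      = c.hΓ.chi γ t * cf Γ (S ∪ (ob R p π a γ \ {γ})) γ g := by
  refine c.cf_eq h hγ ?_
  convert c.hΓ.nm_T_X _ t ht _ (c.cf_mem h hγ hg) using 1
  rw [← c.hΓ.tx ht (h.cl.1 hγ.1).1]
  group

lemma iter_diff (l : ℕ) {g : G} (hg : g ∈ Γ.X (S ∪ (ob R p π a γ \ {γ}))) :
    σ^[l] g ∈ Γ.X (S ∪ (ob R p π a γ \ {(rho R p π a)^[l] γ})) := by
  refine c.iter_X (fun δ hδ h1 => hδ.imp (iter_st h.st · l) ?_) hg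
  rintro ⟨⟨j, rfl⟩, h2⟩
  exact ⟨⟨l + j, Function.iterate_add_apply _ _ _ _⟩,
    fun h3 => h2 (c.iter_inj h1 (h.cl.1 hγ.1).1 h3)⟩

lemma cf_ker {g : G} (hg : g ∈ Γ.X (S ∪ ob R p π a γ)) (hσ : σ g = g) :
    cf Γ (S ∪ (ob R p π a γ \ {γ})) γ g = 0 ↔ g ∈ Γ.X S := by
  have h0 := (h.cl.1 hγ.1).1
  refine ⟨fun h1 => ?_, fun h1 => c.cf_eq h hγ ?_⟩
  · have h2 := c.cf_mem h hγ hg
    rw [h1, c.hΓ.x_zero h0, inv_one, mul_one] at h2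
    refine h.ly.peel c.hΓ (c.ob_fin h hγ) (c.cen_ob h hγ) (c.ob_not h hγ) ?_ Set.Subset.rfl hg
    rintro _ ⟨l, rfl⟩
    simpa only [Function.iterate_fixed hσ] using c.iter_diff h hγ l h2
  · rw [c.hΓ.x_zero h0, inv_one, mul_one]
    exact RG.X_mono (fun _ h _ => Or.inl h) h1

theorem cf_img : ∃ ε : ℤˣ, ∀ t : k, (∃ g ∈ Γ.X (S ∪ ob R p π a γ), σ g = g ∧
    cf Γ (S ∪ (ob R p π a γ \ {γ})) γ g = t) ↔ ((ε : ℤ) : k) * t ^ p ^ lQ R p π a γ = t := by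
  have h0 := (h.cl.1 hγ.1).1
  obtain ⟨ε, hε⟩ := c.sig_iter h0 (len R p π a γ)
  rw [Tw.iter_len] at hε
  refine ⟨ε, fun t => ⟨?_, fun ht => ?_⟩⟩
  · rintro ⟨g, hg, hσ, rfl⟩
    have h1 := c.iter_diff h hγ (len R p π a γ) (c.cf_mem h hγ hg)
    rw [Tw.iter_len, iterate_map_mul, iterate_map_inv, hε, Function.iterate_fixed hσ] at h1
    exact (c.cf_eq h hγ h1).symm
  · have h1 := c.gd_step h hγ
    have hz := RG.x_mem (Γ := Γ) (S := S ∪ ob R p π a γ) h0 (Or.inr ⟨0, rfl⟩) t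
    have h2 := (nrm_mem (fun g hg => c.sig_X (fun δ hδ _ => h1.st δ hδ) hg) hz (len R p π a γ)).2
    have h3 := sig_nrm σ (Γ.x γ t) (len R p π a γ)
    rw [hε, lQ] at *
    rw [ht] at h3
    obtain ⟨m, hm, h4⟩ := h.lang _ (h.ly.cent (c.cen_ob h hγ) (inv_mem h2) (inv_mem (h1.ly.le hz)))
    have h5 : ∀ l, l + 1 ≤ len R p π a γ →
        (Γ.x γ t)⁻¹ * nrm σ (Γ.x γ t) (l + 1) ∈ Γ.X (S ∪ (ob R p π a γ \ {γ})) := by
      intro l hl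
      induction l with
      | zero => simp [nrm]
      | succ l ih =>
        rw [nrm, ← mul_assoc]
        refine mul_mem (ih (by omega)) ?_
        obtain ⟨ε', h6⟩ := c.sig_iter h0 (l + 1)
        rw [h6]
        exact RG.x_mem (c.tw.iter_mem h0 _) (Or.inr ⟨⟨_, rfl⟩, Tw.iter_ne l.succ_pos hl⟩) _
    have h6 := h5 (len R p π a γ - 1) (by have := c.tw.len_pos h0; omega)
    rw [Nat.sub_add_cancel (c.tw.len_pos h0)] at h6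
    refine ⟨_, mul_mem h2 (RG.X_mono (fun _ h _ => Or.inl h) hm), ?_, c.cf_eq h hγ ?_⟩
    · rw [map_mul, h3]
      calc _ = nrm σ (Γ.x γ t) (len R p π a γ) * ((nrm σ (Γ.x γ t) (len R p π a γ))⁻¹ * (Γ.x γ t)⁻¹
            * (nrm σ (Γ.x γ t) (len R p π a γ))⁻¹⁻¹ * (Γ.x γ t)⁻¹⁻¹) * σ m := by group
        _ = _ := by rw [h4]; group
    · convert (c.ly_diff h hγ γ).nm _ (RG.x_mem h0 hγ.1 t) _
        (mul_mem h6 (RG.X_mono (fun _ h _ => Or.inl h) hm)) using 1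
      group

theorem exists_nz : ∃ g ∈ Γ.X (S ∪ ob R p π a γ), σ g = g ∧
    cf Γ (S ∪ (ob R p π a γ \ {γ})) γ g ≠ 0 := by
  obtain ⟨ε, hε⟩ := c.cf_img h hγ
  obtain ⟨t, h0, ht⟩ := exists_fix (k := k)
    (Nat.one_lt_pow (c.tw.lQ_pos (h.cl.1 hγ.1).1).ne' c.tw.one_lt) ε
  obtain ⟨g, h1, h2, rfl⟩ := (hε t).2 ht
  exact ⟨g, h1, h2, h0⟩

end SC

lemma exists_mx {P S : Set R.Q} (hP : P ⊆ R.Pos) (h : ¬P ⊆ S) : ∃ γ, Mx R P S γ := by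
  obtain ⟨γ, h1, h2⟩ := Set.exists_max_image (P \ S) R.ht
    (RS.Pos_finite.subset (Set.sdiff_subset.trans hP)) (Set.sdiff_nonempty.2 h)
  exact ⟨γ, h1.1, h1.2, fun δ hδ h3 => by_contra fun h4 => (h2 δ ⟨hδ, h4⟩).not_gt h3⟩

end Vale.Agent.P183CH3
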